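import Claimed.Agent.R316.Base.ODE.Core

/-!
# `BP-G2` A2: maximal flow: open domain, smooth dependence, continuation, variational equation

The first three statements (open domain, smooth dependence) are proved from `Core.lean` (implicit
function theorem on `C([0,1],E)`).

Leaf `G2-FLOW` (PROVED) = the remaining 7 statements.  PLANS (use only `FlowBasic.lean` and the first three):
* `hasDerivAt_fl`: `φ r = fl f Ω r x` is differentiable at `t` (`contDiffOn_fl` with `n = 1`,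
  `isOpen_dom`, composition with `r ↦ (r, x)`).  Choose `t₁ ≠ 0` with `(t₁, x) ∈ dom` and
  `t ∈ uIcc 0 t₁` (`t₁ = t` if `t ≠ 0`, a small `ε` by `isOpen_dom` if `t = 0`), a solution `c` on
  `uIcc 0 t₁` (`dom_spec`), `φ = c` on `uIcc 0 t₁` (`IsSol.fl_eq`); both `deriv φ t` and `f (c t)` are
  derivatives of `c` within `uIcc 0 t₁` at `t`; `UniqueDiffWithinAt` (`uniqueDiffOn_Icc`).
* `mem_dom_of_frequently_mem`: a cluster point `y ∈ K` of `fl r x`, `r → T-` (`IsCompact`,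
  `Filter.Frequently`, `exists_clusterPt_of_frequently` / sequences); `(0, y) ∈ dom`, `dom` is open:
  `ε` with `ball 0 ε ×ˢ ball y ε ⊆ dom`; choose `r ∈ (T - ε, T)`, `r ≥ 0`, with `fl r x ∈ ball y ε`;
  `fl_add` with `s = T - r`.
* `escape`: contrapositive of the previous one (`Filter.not_frequently`, `mem_nhdsLT_iff_exists_Ioo_subset`).
* `mem_dom_of_apriori`: `T ≥ 0`: `S = {r ∈ Icc 0 T | (r, x) ∈ dom}`, `sSup S =: σ ∈ S` by
  `mem_dom_of_frequently_mem` (if `σ > 0`), and `σ = T` because `dom` is open.  `T ≤ 0`: apply the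
  case `T ≥ 0` to the field `-f` (`mem_dom_smul`, `fl_smul` with `a = -1`).
* `exists_pos_forall_mem_dom`: tube lemma: `{0} ×ˢ K ⊆ dom` open (`generalized_tube_lemma`).
* `hasDerivAt_fderiv_fl`: `Φ (t, x) = fl f Ω t x` is `C^2` near `(t, x)`; symmetry of the second
  derivative (`ContDiffAt.isSymmSndFDerivAt`, `minSmoothness ℝ 2 = 2`); `DΦ (r, y) (1, 0) = f (Φ (r, y))`
  on `dom` (`hasDerivAt_fl`); `fderiv ℝ (fl f Ω r) x = DΦ (r, x) ∘ inr`.
* `fderiv_fl_comp`: `fl (-t) ∘ fl t = id` near `x` (`fl_neg`, `isOpen_dom`), chain rule.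
-/

set_option autoImplicit false
open scoped ContDiff Topology

namespace Claimed.Agent.R316.ODE

section A

variable {E : Type*} [NormedAddCommGroup E] [NormedSpace ℝ E] [CompleteSpace E]
variable {f : E → E} {Ω : Set E} {t s : ℝ} {x : E}

omit [CompleteSpace E] in
theorem dom_eq_kdom : dom f Ω = kdom ℝ f Ω := by
  ext ⟨t, x⟩
  simp only [kdom, Set.mem_ofPred_eq]
  rw [mem_dom_smul, mul_one]

/-- the domain of the maximal flow is an open subset of `ℝ × E`. -/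
theorem isOpen_dom (hΩ : IsOpen Ω) (hf : ContDiffOn ℝ 1 f Ω) : IsOpen (dom f Ω) := by
  rw [dom_eq_kdom]
  exact isOpen_kdom hΩ hf

/-- **smooth dependence**: the flow of a `C^n` field is `C^n` in `(t, x)`. -/
theorem contDiffOn_fl {n : ℕ∞} (hn : 1 ≤ n) (hΩ : IsOpen Ω) (hf : ContDiffOn ℝ n f Ω) :
    ContDiffOn ℝ n (fun p : ℝ × E => fl f Ω p.1 p.2) (dom f Ω) := by
  have hn1 : (1 : WithTop ℕ∞) ≤ n := by exact_mod_cast hn
  rw [dom_eq_kdom]
  refine (contDiffOn_kflow hn hΩ hf).congr fun p _ => ?_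
  rw [fl_smul hΩ (hf.of_le hn1), mul_one]

theorem contDiffOn_fl_infty (hΩ : IsOpen Ω) (hf : ContDiffOn ℝ ∞ f Ω) :
    ContDiffOn ℝ ∞ (fun p : ℝ × E => fl f Ω p.1 p.2) (dom f Ω) :=
  contDiffOn_fl (n := ⊤) le_top hΩ hf

theorem hasDerivAt_fl (hΩ : IsOpen Ω) (hf : ContDiffOn ℝ 1 f Ω) (h : (t, x) ∈ dom f Ω) :
    HasDerivAt (fun r => fl f Ω r x) (f (fl f Ω t x)) t := by
  have hopen := isOpen_dom hΩ hf
  have hd : DifferentiableAt ℝ (fun r => fl f Ω r x) t := by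
    have h1 : ContDiffAt ℝ 1 (fun p : ℝ × E => fl f Ω p.1 p.2) (t, x) :=
      (contDiffOn_fl (n := 1) le_rfl hΩ hf).contDiffAt (hopen.mem_nhds h)
    have h2 : DifferentiableAt ℝ (fun p : ℝ × E => fl f Ω p.1 p.2) (t, x) :=
      h1.differentiableAt (by norm_num)
    have h3 : DifferentiableAt ℝ (fun r : ℝ => (r, x)) t :=
      differentiableAt_id.prodMk (differentiableAt_const x)
    exact DifferentiableAt.comp t (g := fun p : ℝ × E => fl f Ω p.1 p.2) h2 h3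
  obtain ⟨t₁, ht₁0, ht₁, htt⟩ : ∃ t₁ : ℝ, t₁ ≠ 0 ∧ (t₁, x) ∈ dom f Ω ∧ t ∈ Set.uIcc 0 t₁ := by
    by_cases ht : t = 0
    · subst ht
      have h4 : ∀ᶠ r in 𝓝 (0 : ℝ), (r, x) ∈ dom f Ω :=
        (Continuous.prodMk_left x).continuousAt.eventually (hopen.mem_nhds h)
      obtain ⟨ε, hε, hball⟩ := Metric.eventually_nhds_iff.1 h4
      refine ⟨ε / 2, by positivity, hball ?_, Set.left_mem_uIcc⟩
      rw [Real.dist_eq, sub_zero, abs_of_pos (by positivity)]
      linarith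
    · exact ⟨t, ht, h, Set.right_mem_uIcc⟩
  obtain ⟨c, hc, -⟩ := dom_spec ht₁
  have heq : Set.EqOn (fun r => fl f Ω r x) c (Set.uIcc 0 t₁) := fun r hr => (hc.fl_eq hΩ hf r hr).2
  have h5 : HasDerivWithinAt (fun r => fl f Ω r x) (f (c t)) (Set.uIcc 0 t₁) t :=
    ((hc.2 t htt).2).congr heq (heq htt)
  have h6 : UniqueDiffWithinAt ℝ (Set.uIcc 0 t₁) t := by
    refine uniqueDiffOn_Icc ?_ t htt
    rcases lt_or_gt_of_ne ht₁0 with h0 | h0
    · rw [min_eq_right h0.le, max_eq_left h0.le]; exact h0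
    · rw [min_eq_left h0.le, max_eq_right h0.le]; exact h0
  have h7 := h6.eq_deriv _ hd.hasDerivAt.hasDerivWithinAt h5
  have h8 := hd.hasDerivAt
  rw [h7, ← heq htt] at h8
  exact h8

/-- uniform existence time on compact sets. -/
theorem exists_pos_forall_mem_dom (hΩ : IsOpen Ω) (hf : ContDiffOn ℝ 1 f Ω) {K : Set E}
    (hK : IsCompact K) (hKΩ : K ⊆ Ω) : ∃ ε > 0, ∀ y ∈ K, ∀ r : ℝ, |r| ≤ ε → (r, y) ∈ dom f Ω := by
  have hopen := isOpen_dom hΩ hf
  have hsub : ({0} : Set ℝ) ×ˢ K ⊆ dom f Ω := by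
    rintro ⟨r, y⟩ ⟨hr, hy⟩
    rw [Set.mem_singleton_iff] at hr
    subst hr
    exact zero_mem_dom.2 (hKΩ hy)
  obtain ⟨U, V, hU, -, h0U, hKV, hUV⟩ := generalized_tube_lemma isCompact_singleton hK hopen hsub
  obtain ⟨ε, hε, hball⟩ := Metric.isOpen_iff.1 hU 0 (h0U rfl)
  refine ⟨ε / 2, by positivity, fun y hy r hr => hUV ⟨hball ?_, hKV hy⟩⟩
  rw [Metric.mem_ball, Real.dist_eq, sub_zero]
  linarith

/-- **continuation**: if the flow line accumulates at time `T` in a compact subset of `Ω`, it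
exists up to time `T` (and beyond, the domain being open). -/
theorem mem_dom_of_frequently_mem (hΩ : IsOpen Ω) (hf : ContDiffOn ℝ 1 f Ω) {T : ℝ} (hT : 0 < T)
    (h1 : ∀ r ∈ Set.Ico 0 T, (r, x) ∈ dom f Ω) {K : Set E} (hK : IsCompact K) (hKΩ : K ⊆ Ω)
    (h2 : ∃ᶠ r in 𝓝[<] T, fl f Ω r x ∈ K) : (T, x) ∈ dom f Ω := by
  obtain ⟨ε, hε, hu⟩ := exists_pos_forall_mem_dom hΩ hf hK hKΩ
  have h3 : ∀ᶠ r in 𝓝[<] T, r ∈ Set.Ioo (max 0 (T - ε)) T :=
    Ioo_mem_nhdsLT (max_lt hT (by linarith))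
  obtain ⟨r, hrK, hr⟩ := (h2.and_eventually h3).exists
  have hr0 : 0 < r := lt_of_le_of_lt (le_max_left _ _) hr.1
  have hr1 : T - ε < r := lt_of_le_of_lt (le_max_right _ _) hr.1
  have h4 : (T - r, fl f Ω r x) ∈ dom f Ω := hu _ hrK _ (by
    rw [abs_of_pos (by linarith [hr.2])]; linarith)
  have h5 := (fl_add hΩ hf (h1 r ⟨hr0.le, hr.2⟩) h4).1
  rwa [sub_add_cancel] at h5

/-- **escape lemma**: a flow line with finite maximal time leaves every compact subset of `Ω`. -/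
theorem escape (hΩ : IsOpen Ω) (hf : ContDiffOn ℝ 1 f Ω) {T : ℝ} (hT : 0 < T)
    (h1 : ∀ r ∈ Set.Ico 0 T, (r, x) ∈ dom f Ω) (h2 : (T, x) ∉ dom f Ω)
    {K : Set E} (hK : IsCompact K) (hKΩ : K ⊆ Ω) :
    ∃ t₀ ∈ Set.Ico 0 T, ∀ r ∈ Set.Ioo t₀ T, fl f Ω r x ∉ K := by
  by_contra hcon
  push Not at hcon
  apply h2
  refine mem_dom_of_frequently_mem hΩ hf hT h1 hK hKΩ ?_
  rw [Filter.frequently_iff]
  intro U hU
  obtain ⟨l, hl, hlU⟩ := (mem_nhdsLT_iff_exists_Ioo_subset).1 hU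
  obtain ⟨r, hr, hrK⟩ := hcon (max l 0) ⟨le_max_right _ _, max_lt hl hT⟩
  exact ⟨r, hlU ⟨lt_of_le_of_lt (le_max_left _ _) hr.1, hr.2⟩, hrK⟩

/-- **a priori bound ⇒ existence**: if the flow line stays in a compact subset of `Ω` as long as it
exists in the segment from `0` to `T` (`T` of any sign), then it exists up to `T`. -/
theorem mem_dom_of_apriori (hΩ : IsOpen Ω) (hf : ContDiffOn ℝ 1 f Ω) {T : ℝ} (hx : x ∈ Ω)
    {K : Set E} (hK : IsCompact K) (hKΩ : K ⊆ Ω)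
    (h : ∀ r ∈ Set.uIcc 0 T, (r, x) ∈ dom f Ω → fl f Ω r x ∈ K) : (T, x) ∈ dom f Ω := by
  obtain ⟨ε, hε, hu⟩ := exists_pos_forall_mem_dom hΩ hf hK hKΩ
  have key : ∀ n : ℕ, ∀ r ∈ Set.uIcc 0 T, |r| ≤ n * ε → (r, x) ∈ dom f Ω := by
    intro n
    induction n with
    | zero =>
      intro r _ hr
      have : r = 0 := by
        rw [Nat.cast_zero, zero_mul] at hr
        exact abs_eq_zero.1 (le_antisymm hr (abs_nonneg r))
      rw [this]
      exact zero_mem_dom.2 hx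
    | succ n ih =>
      intro r hrT hr
      set θ : ℝ := (n : ℝ) / ((n : ℝ) + 1) with hθ
      have hn1 : (0 : ℝ) < (n : ℝ) + 1 := by positivity
      have hθ0 : 0 ≤ θ := by positivity
      have hθ1 : θ ≤ 1 := by rw [hθ, div_le_one hn1]; linarith
      have hr' : θ * r ∈ Set.uIcc 0 T := by
        have h1 : θ * r ∈ Set.uIcc 0 r := by
          have := mul_mem_uIcc (t := 1) (a := r) (r := θ) (by
            rw [Set.uIcc_of_le zero_le_one]; exact ⟨hθ0, hθ1⟩)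
          rwa [mul_one, mul_comm] at this
        exact Set.uIcc_subset_uIcc_left hrT h1
      have habs : |θ * r| ≤ n * ε := by
        rw [abs_mul, abs_of_nonneg hθ0, hθ, div_mul_eq_mul_div, div_le_iff₀ hn1]
        push_cast at hr
        nlinarith [abs_nonneg r, (Nat.cast_nonneg n : (0 : ℝ) ≤ n)]
      have h1 := ih _ hr' habs
      have h2 := h _ hr' h1
      have h3 : (r - θ * r, fl f Ω (θ * r) x) ∈ dom f Ω := by
        refine hu _ h2 _ ?_
        have : r - θ * r = r / ((n : ℝ) + 1) := by rw [hθ]; field_simp; ring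
        rw [this, abs_div, abs_of_pos hn1, div_le_iff₀ hn1]
        push_cast at hr
        linarith
      have h4 := (fl_add hΩ hf h1 h3).1
      rwa [sub_add_cancel] at h4
  obtain ⟨n, hn⟩ := exists_nat_ge (|T| / ε)
  exact key n T Set.right_mem_uIcc (by rwa [div_le_iff₀ hε] at hn)

/-- **variational equation**: `U(t) = D_x fl(t,x)` solves `U' = Df(fl(t,x)) ∘ U`. -/
theorem hasDerivAt_fderiv_fl (hΩ : IsOpen Ω) (hf : ContDiffOn ℝ 2 f Ω) (h : (t, x) ∈ dom f Ω) :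
    HasDerivAt (fun r => fderiv ℝ (fl f Ω r) x)
      ((fderiv ℝ f (fl f Ω t x)).comp (fderiv ℝ (fl f Ω t) x)) t := by
  have hf1 : ContDiffOn ℝ 1 f Ω := hf.of_le (by norm_num)
  have hopen := isOpen_dom hΩ hf1
  set Φ : ℝ × E → E := fun p => fl f Ω p.1 p.2 with hΦ
  have hΦ2 : ContDiffAt ℝ 2 Φ (t, x) :=
    (contDiffOn_fl (n := 2) (by norm_num) hΩ hf).contDiffAt (hopen.mem_nhds h)
  have hΦd : ∀ p ∈ dom f Ω, DifferentiableAt ℝ Φ p := fun p hp =>
    ((contDiffOn_fl (n := 1) le_rfl hΩ hf1).contDiffAt (hopen.mem_nhds hp)).differentiableAt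
      (by norm_num)
  have hD : DifferentiableAt ℝ (fderiv ℝ Φ) (t, x) :=
    (hΦ2.fderiv_right (m := 1) (by norm_num)).differentiableAt (by norm_num)
  set D2 := fderiv ℝ (fderiv ℝ Φ) (t, x) with hD2
  -- the partial derivative in `x`
  have hpart : ∀ r : ℝ, (r, x) ∈ dom f Ω →
      fderiv ℝ (fl f Ω r) x = (fderiv ℝ Φ (r, x)).comp (ContinuousLinearMap.inr ℝ ℝ E) := by
    intro r hr
    have h1 : HasFDerivAt (fun y : E => (r, y)) (ContinuousLinearMap.inr ℝ ℝ E) x :=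
      hasFDerivAt_prodMk_right r x
    exact ((hΦd _ hr).hasFDerivAt.comp x h1).fderiv
  have hcurve : HasDerivAt (fun r : ℝ => (r, x)) ((1 : ℝ), (0 : E)) t :=
    (hasDerivAt_id t).prodMk (hasDerivAt_const t x)
  have h1 : HasDerivAt (fun r : ℝ => fderiv ℝ Φ (r, x)) (D2 (1, 0)) t :=
    hD.hasFDerivAt.comp_hasDerivAt t hcurve
  have h2 : HasDerivAt (fun r : ℝ => (fderiv ℝ Φ (r, x)).comp (ContinuousLinearMap.inr ℝ ℝ E))
      ((D2 (1, 0)).comp (ContinuousLinearMap.inr ℝ ℝ E)) t := by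
    have := h1.clm_comp (hasDerivAt_const t (ContinuousLinearMap.inr ℝ ℝ E))
    simpa using this
  have hev : (fun r => fderiv ℝ (fl f Ω r) x) =ᶠ[𝓝 t]
      fun r : ℝ => (fderiv ℝ Φ (r, x)).comp (ContinuousLinearMap.inr ℝ ℝ E) := by
    have h4 : ∀ᶠ r in 𝓝 t, (r, x) ∈ dom f Ω :=
      (Continuous.prodMk_left x).continuousAt.eventually (hopen.mem_nhds h)
    filter_upwards [h4] with r hr using hpart r hr
  refine (h2.congr_of_eventuallyEq hev).congr_deriv ?_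
  ext v
  have hsymm : IsSymmSndFDerivAt ℝ Φ (t, x) := hΦ2.isSymmSndFDerivAt (by simp)
  show D2 (1, 0) (0, v) = fderiv ℝ f (fl f Ω t x) (fderiv ℝ (fl f Ω t) x v)
  rw [hpart t h, hD2, hsymm.eq (1, 0) (0, v)]
  -- `DΦ p (1, 0) = f (Φ p)` on the domain
  have h5 : (fun p => fderiv ℝ Φ p (1, 0)) =ᶠ[𝓝 (t, x)] fun p => f (Φ p) := by
    filter_upwards [hopen.mem_nhds h] with p hp
    have h6 : HasDerivAt (fun r : ℝ => (r, p.2)) ((1 : ℝ), (0 : E)) p.1 :=
      (hasDerivAt_id p.1).prodMk (hasDerivAt_const p.1 p.2)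
    have h7' : HasFDerivAt Φ (fderiv ℝ Φ p) ((fun r : ℝ => (r, p.2)) p.1) := (hΦd p hp).hasFDerivAt
    have h7'' := HasFDerivAt.comp_hasDerivAt p.1 h7' h6
    have h7 : HasDerivAt (fun r => fl f Ω r p.2) (fderiv ℝ Φ p (1, 0)) p.1 := h7''
    exact h7.unique (hasDerivAt_fl hΩ hf1 (show (p.1, p.2) ∈ dom f Ω from hp))
  have h8 : HasFDerivAt (fun p => fderiv ℝ Φ p (1, 0))
      ((fderiv ℝ (fderiv ℝ Φ) (t, x)).flip (1, 0)) (t, x) := by
    have := hD.hasFDerivAt.clm_apply (hasFDerivAt_const ((1 : ℝ), (0 : E)) (t, x))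
    simpa using this
  have hfd : DifferentiableAt ℝ f (Φ (t, x)) :=
    (hf1.contDiffAt (hΩ.mem_nhds (fl_mem h))).differentiableAt (by norm_num)
  have h9 : HasFDerivAt (fun p => f (Φ p)) ((fderiv ℝ f (Φ (t, x))).comp (fderiv ℝ Φ (t, x)))
      (t, x) := hfd.hasFDerivAt.comp (t, x) (hΦd _ h).hasFDerivAt
  have h10 := h8.unique (h9.congr_of_eventuallyEq h5)
  exact congrArg (fun L : ℝ × E →L[ℝ] E => L (0, v)) h10

/-- the flow maps are local diffeomorphisms. -/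
theorem fderiv_fl_comp (hΩ : IsOpen Ω) (hf : ContDiffOn ℝ 1 f Ω) (h : (t, x) ∈ dom f Ω) :
    (fderiv ℝ (fl f Ω (-t)) (fl f Ω t x)).comp (fderiv ℝ (fl f Ω t) x) =
      ContinuousLinearMap.id ℝ E := by
  have hopen := isOpen_dom hΩ hf
  have hdiff : ∀ {τ : ℝ} {y : E}, (τ, y) ∈ dom f Ω → DifferentiableAt ℝ (fl f Ω τ) y := by
    intro τ y hy
    have h1 : ContDiffAt ℝ 1 (fun p : ℝ × E => fl f Ω p.1 p.2) (τ, y) :=
      (contDiffOn_fl (n := 1) le_rfl hΩ hf).contDiffAt (hopen.mem_nhds hy)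
    have h2 : DifferentiableAt ℝ (fun p : ℝ × E => fl f Ω p.1 p.2) (τ, y) :=
      h1.differentiableAt (by norm_num)
    have h3 : DifferentiableAt ℝ (fun y : E => (τ, y)) y :=
      (differentiableAt_const τ).prodMk differentiableAt_id
    exact DifferentiableAt.comp y (g := fun p : ℝ × E => fl f Ω p.1 p.2) h2 h3
  have h1 := hdiff h
  have h2 := hdiff (fl_neg hΩ hf h).1
  have h3 : (fl f Ω (-t)) ∘ (fl f Ω t) =ᶠ[𝓝 x] id := by
    have h4 : ∀ᶠ y in 𝓝 x, (t, y) ∈ dom f Ω :=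
      (Continuous.prodMk_right t).continuousAt.eventually (hopen.mem_nhds h)
    filter_upwards [h4] with y hy
    exact (fl_neg hΩ hf hy).2
  have h5 := (h2.hasFDerivAt.comp x h1.hasFDerivAt).congr_of_eventuallyEq h3.symm
  exact (h5.unique (hasFDerivAt_id x))

end A

end Claimed.Agent.R316.ODE
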