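import Claimed.Agent.R316.Base.ODE.Evo

/-!
# `BP-G2` C: linear equations, Jacobi type estimates

Leaves `G2-LIN` (existence, linearity: PROVED) and `G2-JAC` (`jacobi_bounds`, elementary
bounds: PROVED).  PLANS for `G2-LIN`:
* `exists_linear_sol`: first on `[t₀, b]` and on `[a, t₀]` separately, then glue
  (`HasDerivWithinAt.union`, `Set.Icc_union_Icc_eq_Icc`).  On `[t₀, b]`, `l = b - t₀`: put
  `A' s = l • A (t₀ + l s)`, `β' s = l • β (t₀ + l s)` in `C(I, ·)`; `isInvertible_one_sub_volt A'`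
  (`Volt.lean`, `𝕜 = ℝ`) gives `γ` with `γ - volt ℝ (appL A' γ) = constL ℝ x₀ + volt ℝ β'`; as in
  `isSol_of_picG` (`Core.lean`) `cext γ` has derivative `A' s (γ s) + β' s` on `[0,1]`
  (`hasDerivAt_integral_cext`); `x t = cext γ ((t - t₀) / l)` (`l = 0` trivial).  `[a, t₀]`: reflect.
* `linear_sol_unique`: `ODE_solution_unique_of_mem_Icc_right/left` with `v t y = A t y + β t`,
  `s t = univ`, Lipschitz constant = a bound of `‖A t‖` on the compact interval.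
* `linear_mem_evoDom`: `exists_linear_sol` on `uIcc t₀ t ⊆ J` and `eq_evo_of_hasDerivWithinAt`.
* `evo_linear_add/smul`: the sum (multiple) of solutions is a solution + `eq_evo_of_hasDerivWithinAt`.
-/

set_option autoImplicit false
set_option linter.unusedSectionVars false
open scoped ContDiff Topology unitInterval

namespace Claimed.Agent.R316.ODE

section C

variable {E : Type*} [NormedAddCommGroup E] [NormedSpace ℝ E] [CompleteSpace E]

/-- linear equations on the unit interval, initial time `0`. -/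
theorem exists_linear_sol_unit (A : C(I, E →L[ℝ] E)) (β : C(I, E)) (x₀ : E) :
    ∃ γ : C(I, E), cext γ 0 = x₀ ∧ ∀ s ∈ Set.Icc (0 : ℝ) 1,
      HasDerivWithinAt (cext γ) (cext A s (cext γ s) + cext β s) (Set.Icc 0 1) s := by
  obtain ⟨M, hM⟩ := isInvertible_one_sub_volt (𝕜 := ℝ) A
  set γ : C(I, E) := M.symm (constL ℝ x₀ + volt ℝ β) with hγ
  have h0 : (ContinuousLinearMap.id ℝ C(I, E) - volt ℝ ∘L appL A) γ = constL ℝ x₀ + volt ℝ β := by
    rw [← hM, hγ]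
    exact M.apply_symm_apply _
  have h1 : ∀ s : I, γ s = x₀ + ((∫ r in (0 : ℝ)..s, cext (appL A γ) r) +
      ∫ r in (0 : ℝ)..s, cext β r) := by
    intro s
    have h2 := congrArg (fun g : C(I, E) => g s) h0
    simp only [sub_apply, ContinuousLinearMap.id_apply,
      ContinuousLinearMap.comp_apply, ContinuousMap.sub_apply, ContinuousMap.add_apply,
      constL_apply, volt_apply] at h2
    rw [sub_eq_iff_eq_add] at h2
    rw [h2]
    abel
  have h2 : ∀ r ∈ Set.Icc (0 : ℝ) 1, cext γ r = x₀ + ((∫ r' in (0 : ℝ)..r, cext (appL A γ) r') +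
      ∫ r' in (0 : ℝ)..r, cext β r') := by
    intro r hr
    rw [cext_of_mem _ hr, h1]
  refine ⟨γ, ?_, ?_⟩
  · rw [h2 0 ⟨le_rfl, zero_le_one⟩]; simp
  · intro s hs
    have h3 : HasDerivAt (fun s : ℝ => x₀ + ((∫ r in (0 : ℝ)..s, cext (appL A γ) r) +
        ∫ r in (0 : ℝ)..s, cext β r)) (cext (appL A γ) s + cext β s) s :=
      ((hasDerivAt_integral_cext _ s).add (hasDerivAt_integral_cext _ s)).const_add x₀
    have h4 : cext (appL A γ) s = cext A s (cext γ s) := by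
      rw [cext_of_mem _ hs, cext_of_mem _ hs, cext_of_mem _ hs, appL_apply]
    rw [← h4]
    exact h3.hasDerivWithinAt.congr (fun r hr => h2 r hr) (h2 s hs)

/-- linear equations on the segment between `t₀` and `t₁`. -/
theorem exists_linear_sol_uIcc {t₀ t₁ : ℝ} {A : ℝ → E →L[ℝ] E} {β : ℝ → E}
    (hA : ContinuousOn A (Set.uIcc t₀ t₁)) (hβ : ContinuousOn β (Set.uIcc t₀ t₁)) (x₀ : E) :
    ∃ x : ℝ → E, x t₀ = x₀ ∧
      ∀ t ∈ Set.uIcc t₀ t₁, HasDerivWithinAt x (A t (x t) + β t) (Set.uIcc t₀ t₁) t := by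
  rcases eq_or_ne t₁ t₀ with rfl | hne
  · refine ⟨fun _ => x₀, rfl, fun t ht => ?_⟩
    rw [Set.uIcc_self] at ht ⊢
    rw [Set.mem_singleton_iff] at ht
    subst ht
    refine HasFDerivWithinAt.of_not_accPt ?_
    rw [accPt_iff_clusterPt, Filter.inf_principal]
    simp [ClusterPt]
  · set l : ℝ := t₁ - t₀ with hl
    have hl0 : l ≠ 0 := sub_ne_zero.2 hne
    have hmap : ∀ s : I, t₀ + l * (s : ℝ) ∈ Set.uIcc t₀ t₁ := by
      intro s
      have h1 := mul_mem_uIcc (t := 1) (a := l) (r := (s : ℝ)) (by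
        rw [Set.uIcc_of_le zero_le_one]; exact s.2)
      rw [mul_one] at h1
      rw [Set.mem_uIcc] at h1 ⊢
      rcases h1 with h1 | h1
      · exact Or.inl ⟨by linarith [h1.1], by linarith [h1.2]⟩
      · exact Or.inr ⟨by linarith [h1.1], by linarith [h1.2]⟩
    have hφ : Continuous fun s : I => t₀ + l * (s : ℝ) := by fun_prop
    let A' : C(I, E →L[ℝ] E) := ⟨fun s => l • A (t₀ + l * (s : ℝ)),
      (hA.comp_continuous hφ hmap).const_smul l⟩
    let β' : C(I, E) := ⟨fun s => l • β (t₀ + l * (s : ℝ)),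
      (hβ.comp_continuous hφ hmap).const_smul l⟩
    obtain ⟨γ, hγ0, hγ⟩ := exists_linear_sol_unit A' β' x₀
    have hmap2 : Set.MapsTo (fun t : ℝ => (t - t₀) / l) (Set.uIcc t₀ t₁) (Set.Icc 0 1) := by
      intro t ht
      have h1 : t - t₀ ∈ Set.uIcc 0 l := by
        rw [Set.mem_uIcc] at ht ⊢
        rcases ht with ht | ht
        · exact Or.inl ⟨by linarith [ht.1], by linarith [ht.2]⟩
        · exact Or.inr ⟨by linarith [ht.1], by linarith [ht.2]⟩
      have h2 := mul_mem_uIcc (a := l⁻¹) h1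
      rw [inv_mul_cancel₀ hl0, Set.uIcc_of_le zero_le_one] at h2
      show (t - t₀) / l ∈ Set.Icc (0 : ℝ) 1
      rwa [div_eq_inv_mul]
    refine ⟨fun t => cext γ ((t - t₀) / l), by simpa using hγ0, fun t ht => ?_⟩
    have hs := hmap2 ht
    have h1 : HasDerivWithinAt (fun t : ℝ => (t - t₀) / l) (1 / l) (Set.uIcc t₀ t₁) t :=
      (((hasDerivAt_id t).sub_const t₀).div_const l).hasDerivWithinAt
    have h2 := HasDerivWithinAt.scomp t (hγ _ hs) h1 hmap2
    refine h2.congr_deriv ?_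
    have h3 : t₀ + l * ((t - t₀) / l) = t := by field_simp; ring
    rw [cext_of_mem A' hs, cext_of_mem β' hs]
    show (1 / l) • ((l • A (t₀ + l * ((t - t₀) / l))) (cext γ ((t - t₀) / l)) +
      l • β (t₀ + l * ((t - t₀) / l))) = _
    rw [h3, smul_apply, ← smul_add, smul_smul, one_div, inv_mul_cancel₀ hl0,
      one_smul]

/-- global existence for linear equations with continuous coefficients on a compact interval. -/
theorem exists_linear_sol {a b : ℝ} {A : ℝ → E →L[ℝ] E} {β : ℝ → E}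
    (hA : ContinuousOn A (Set.Icc a b)) (hβ : ContinuousOn β (Set.Icc a b)) {t₀ : ℝ}
    (ht₀ : t₀ ∈ Set.Icc a b) (x₀ : E) :
    ∃ x : ℝ → E, x t₀ = x₀ ∧
      ∀ t ∈ Set.Icc a b, HasDerivWithinAt x (A t (x t) + β t) (Set.Icc a b) t := by
  have hI1 : Set.uIcc t₀ a = Set.Icc a t₀ := Set.uIcc_of_ge ht₀.1
  have hI2 : Set.uIcc t₀ b = Set.Icc t₀ b := Set.uIcc_of_le ht₀.2
  obtain ⟨x₁, h10, h1⟩ := exists_linear_sol_uIcc (t₀ := t₀) (t₁ := a)
    (hA.mono (hI1 ▸ Set.Icc_subset_Icc_right ht₀.2)) (hβ.mono (hI1 ▸ Set.Icc_subset_Icc_right ht₀.2)) x₀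
  obtain ⟨x₂, h20, h2⟩ := exists_linear_sol_uIcc (t₀ := t₀) (t₁ := b)
    (hA.mono (hI2 ▸ Set.Icc_subset_Icc_left ht₀.1)) (hβ.mono (hI2 ▸ Set.Icc_subset_Icc_left ht₀.1)) x₀
  rw [hI1] at h1
  rw [hI2] at h2
  set x : ℝ → E := fun t => if t ≤ t₀ then x₁ t else x₂ t with hx
  have e1 : Set.EqOn x x₁ (Set.Icc a t₀) := fun t ht => by simp [hx, ht.2]
  have e2 : Set.EqOn x x₂ (Set.Icc t₀ b) := by
    intro t ht
    rcases eq_or_lt_of_le ht.1 with h | h
    · subst h; simp [hx, h10, h20]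
    · simp [hx, not_le.2 h]
  refine ⟨x, by simp [hx, h10], fun t ht => ?_⟩
  rw [← Set.Icc_union_Icc_eq_Icc ht₀.1 ht₀.2]
  refine HasDerivWithinAt.union ?_ ?_
  · by_cases h : t ≤ t₀
    · have ht' : t ∈ Set.Icc a t₀ := ⟨ht.1, h⟩
      rw [e1 ht']
      exact (h1 t ht').congr e1 (e1 ht')
    · refine HasFDerivWithinAt.of_notMem_closure ?_
      rw [closure_Icc]
      exact fun h' => h h'.2
  · by_cases h : t₀ ≤ t
    · have ht' : t ∈ Set.Icc t₀ b := ⟨h, ht.2⟩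
      rw [e2 ht']
      exact (h2 t ht').congr e2 (e2 ht')
    · refine HasFDerivWithinAt.of_notMem_closure ?_
      rw [closure_Icc]
      exact fun h' => h h'.1

theorem linear_sol_unique {a b : ℝ} {A : ℝ → E →L[ℝ] E} {β : ℝ → E}
    (hA : ContinuousOn A (Set.Icc a b)) {t₀ : ℝ} (ht₀ : t₀ ∈ Set.Icc a b) {x y : ℝ → E}
    (hx : ∀ t ∈ Set.Icc a b, HasDerivWithinAt x (A t (x t) + β t) (Set.Icc a b) t)
    (hy : ∀ t ∈ Set.Icc a b, HasDerivWithinAt y (A t (y t) + β t) (Set.Icc a b) t)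
    (h0 : x t₀ = y t₀) : Set.EqOn x y (Set.Icc a b) := by
  obtain ⟨C, hC⟩ := isCompact_Icc.exists_bound_of_continuousOn hA
  have hlip : ∀ t ∈ Set.Icc a b,
      LipschitzOnWith (Real.toNNReal C) (fun z => A t z + β t) Set.univ := by
    intro t ht
    refine LipschitzOnWith.of_dist_le_mul fun z _ w _ => ?_
    rw [dist_add_right, dist_eq_norm, dist_eq_norm, ← map_sub]
    refine ((A t).le_opNorm _).trans ?_
    gcongr
    exact (hC t ht).trans (Real.le_coe_toNNReal C)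
  have hcx : ContinuousOn x (Set.Icc a b) := fun t ht => (hx t ht).continuousWithinAt
  have hcy : ContinuousOn y (Set.Icc a b) := fun t ht => (hy t ht).continuousWithinAt
  rw [← Set.Icc_union_Icc_eq_Icc ht₀.1 ht₀.2]
  refine Set.EqOn.union ?_ ?_
  · have hs : Set.Icc a t₀ ⊆ Set.Icc a b := Set.Icc_subset_Icc_right ht₀.2
    have hd : ∀ {z : ℝ → E}, (∀ t ∈ Set.Icc a b,
        HasDerivWithinAt z (A t (z t) + β t) (Set.Icc a b) t) → ∀ t ∈ Set.Ioc a t₀,
        HasDerivWithinAt z (A t (z t) + β t) (Set.Iic t) t := by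
      intro z hz t ht
      exact (hz t ⟨ht.1.le, ht.2.trans ht₀.2⟩).mono_of_mem_nhdsWithin
        (Icc_mem_nhdsLE_of_mem ⟨ht.1, ht.2.trans ht₀.2⟩)
    exact ODE_solution_unique_of_mem_Icc_left (v := fun t z => A t z + β t) (s := fun _ => Set.univ)
      (fun t ht => hlip t ⟨ht.1.le, ht.2.trans ht₀.2⟩) (hcx.mono hs) (hd hx) (fun _ _ => trivial)
      (hcy.mono hs) (hd hy) (fun _ _ => trivial) h0
  · have hs : Set.Icc t₀ b ⊆ Set.Icc a b := Set.Icc_subset_Icc_left ht₀.1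
    have hd : ∀ {z : ℝ → E}, (∀ t ∈ Set.Icc a b,
        HasDerivWithinAt z (A t (z t) + β t) (Set.Icc a b) t) → ∀ t ∈ Set.Ico t₀ b,
        HasDerivWithinAt z (A t (z t) + β t) (Set.Ici t) t := by
      intro z hz t ht
      exact (hz t ⟨ht₀.1.trans ht.1, ht.2.le⟩).mono_of_mem_nhdsWithin
        (Icc_mem_nhdsGE_of_mem ⟨ht₀.1.trans ht.1, ht.2⟩)
    exact ODE_solution_unique_of_mem_Icc_right (v := fun t z => A t z + β t)
      (s := fun _ => Set.univ)
      (fun t ht => hlip t ⟨ht₀.1.trans ht.1, ht.2.le⟩) (hcx.mono hs) (hd hx) (fun _ _ => trivial)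
      (hcy.mono hs) (hd hy) (fun _ _ => trivial) h0

variable {P : Type*} [NormedAddCommGroup P] [NormedSpace ℝ P] [CompleteSpace P]

/-- the field of the linear equation `x' = A(t,p) x + β(t,p)`. -/
noncomputable def linField (A : ℝ × P → E →L[ℝ] E) (β : ℝ × P → E) : ℝ × P × E → E :=
  fun q => A (q.1, q.2.1) q.2.2 + β (q.1, q.2.1)

theorem contDiffOn_linField {n : WithTop ℕ∞} {A : ℝ × P → E →L[ℝ] E} {β : ℝ × P → E}
    {J : Set ℝ} {P₀ : Set P} (hA : ContDiffOn ℝ n A (J ×ˢ P₀)) (hβ : ContDiffOn ℝ n β (J ×ˢ P₀)) :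
    ContDiffOn ℝ n (linField A β) (J ×ˢ P₀ ×ˢ (Set.univ : Set E)) := by
  have h1 : ContDiff ℝ n fun q : ℝ × P × E => (q.1, q.2.1) := by fun_prop
  have hm : Set.MapsTo (fun q : ℝ × P × E => (q.1, q.2.1)) (J ×ˢ P₀ ×ˢ (Set.univ : Set E))
      (J ×ˢ P₀) := fun q hq => ⟨hq.1, hq.2.1⟩
  have h2 : ContDiff ℝ n fun q : ℝ × P × E => q.2.2 := by fun_prop
  exact ((hA.comp h1.contDiffOn hm).clm_apply h2.contDiffOn).add (hβ.comp h1.contDiffOn hm)

/-- linear equations have global solutions: with `contDiffOn_evo` this gives solutions depending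
smoothly on `(t, t₀, p, x)`. -/
theorem linear_mem_evoDom {A : ℝ × P → E →L[ℝ] E} {β : ℝ × P → E} {J : Set ℝ} {P₀ : Set P}
    (hJ : IsOpen J) (hJc : J.OrdConnected) (hP : IsOpen P₀)
    (hA : ContDiffOn ℝ 1 A (J ×ˢ P₀)) (hβ : ContDiffOn ℝ 1 β (J ×ˢ P₀))
    {t t₀ : ℝ} (ht : t ∈ J) (ht₀ : t₀ ∈ J) {p : P} (hp : p ∈ P₀) (x : E) :
    (t, t₀, p, x) ∈ evoDom (linField A β) (J ×ˢ P₀ ×ˢ (Set.univ : Set E)) := by
  have hO : IsOpen (J ×ˢ P₀ ×ˢ (Set.univ : Set E)) := hJ.prod (hP.prod isOpen_univ)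
  have hsub : Set.uIcc t₀ t ⊆ J := hJc.uIcc_subset ht₀ ht
  have hc : Continuous fun r : ℝ => (r, p) := by fun_prop
  have hm : Set.MapsTo (fun r : ℝ => (r, p)) (Set.uIcc t₀ t) (J ×ˢ P₀) := fun r hr => ⟨hsub hr, hp⟩
  obtain ⟨c, hc0, hc1⟩ := exists_linear_sol_uIcc (t₀ := t₀) (t₁ := t) (A := fun r => A (r, p))
    (β := fun r => β (r, p)) (hA.continuousOn.comp hc.continuousOn hm)
    (hβ.continuousOn.comp hc.continuousOn hm) x
  have h1 := eq_evo_of_hasDerivWithinAt hO (contDiffOn_linField hA hβ) (J := Set.uIcc t₀ t)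
    Set.ordConnected_uIcc (p := p) (c := c) (fun r hr => ⟨⟨hsub hr, hp, trivial⟩, hc1 r hr⟩)
    Set.left_mem_uIcc Set.right_mem_uIcc
  rw [hc0] at h1
  exact h1.1

/-- the evolution of a homogeneous linear equation is linear. -/
theorem evo_linear_add {A : ℝ × P → E →L[ℝ] E} {J : Set ℝ} {P₀ : Set P}
    (hJ : IsOpen J) (hJc : J.OrdConnected) (hP : IsOpen P₀) (hA : ContDiffOn ℝ 1 A (J ×ˢ P₀))
    {t t₀ : ℝ} (ht : t ∈ J) (ht₀ : t₀ ∈ J) {p : P} (hp : p ∈ P₀) (x y : E) :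
    evo (linField A 0) (J ×ˢ P₀ ×ˢ (Set.univ : Set E)) t t₀ p (x + y) =
      evo (linField A 0) (J ×ˢ P₀ ×ˢ (Set.univ : Set E)) t t₀ p x +
      evo (linField A 0) (J ×ˢ P₀ ×ˢ (Set.univ : Set E)) t t₀ p y := by
  have hO : IsOpen (J ×ˢ P₀ ×ˢ (Set.univ : Set E)) := hJ.prod (hP.prod isOpen_univ)
  have hβ : ContDiffOn ℝ 1 (0 : ℝ × P → E) (J ×ˢ P₀) := contDiffOn_const
  have hF := contDiffOn_linField hA hβ (E := E)
  have hd : ∀ (z : E), ∀ r ∈ J, HasDerivAt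
      (fun r => evo (linField A 0) (J ×ˢ P₀ ×ˢ (Set.univ : Set E)) r t₀ p z)
      (linField A 0 (r, p, evo (linField A 0) (J ×ˢ P₀ ×ˢ (Set.univ : Set E)) r t₀ p z)) r :=
    fun z r hr => hasDerivAt_evo hO hF (linear_mem_evoDom hJ hJc hP hA hβ hr ht₀ hp z)
  have h1 := eq_evo_of_hasDerivWithinAt hO hF hJc (p := p)
    (c := fun r => evo (linField A 0) (J ×ˢ P₀ ×ˢ (Set.univ : Set E)) r t₀ p x +
      evo (linField A 0) (J ×ˢ P₀ ×ˢ (Set.univ : Set E)) r t₀ p y)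
    (fun r hr => ⟨⟨hr, hp, trivial⟩, by
      refine (((hd x r hr).add (hd y r hr)).hasDerivWithinAt).congr_deriv ?_
      simp [linField]⟩) ht₀ ht
  have h2 := h1.2
  simp only [evo_self] at h2
  exact h2

theorem evo_linear_smul {A : ℝ × P → E →L[ℝ] E} {J : Set ℝ} {P₀ : Set P}
    (hJ : IsOpen J) (hJc : J.OrdConnected) (hP : IsOpen P₀) (hA : ContDiffOn ℝ 1 A (J ×ˢ P₀))
    {t t₀ : ℝ} (ht : t ∈ J) (ht₀ : t₀ ∈ J) {p : P} (hp : p ∈ P₀) (a : ℝ) (x : E) :
    evo (linField A 0) (J ×ˢ P₀ ×ˢ (Set.univ : Set E)) t t₀ p (a • x) =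
      a • evo (linField A 0) (J ×ˢ P₀ ×ˢ (Set.univ : Set E)) t t₀ p x := by
  have hO : IsOpen (J ×ˢ P₀ ×ˢ (Set.univ : Set E)) := hJ.prod (hP.prod isOpen_univ)
  have hβ : ContDiffOn ℝ 1 (0 : ℝ × P → E) (J ×ˢ P₀) := contDiffOn_const
  have hF := contDiffOn_linField hA hβ (E := E)
  have hd : ∀ (z : E), ∀ r ∈ J, HasDerivAt
      (fun r => evo (linField A 0) (J ×ˢ P₀ ×ˢ (Set.univ : Set E)) r t₀ p z)
      (linField A 0 (r, p, evo (linField A 0) (J ×ˢ P₀ ×ˢ (Set.univ : Set E)) r t₀ p z)) r :=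
    fun z r hr => hasDerivAt_evo hO hF (linear_mem_evoDom hJ hJc hP hA hβ hr ht₀ hp z)
  have h1 := eq_evo_of_hasDerivWithinAt hO hF hJc (p := p)
    (c := fun r => a • evo (linField A 0) (J ×ˢ P₀ ×ˢ (Set.univ : Set E)) r t₀ p x)
    (fun r hr => ⟨⟨hr, hp, trivial⟩, by
      refine (((hd x r hr).const_smul a).hasDerivWithinAt).congr_deriv ?_
      simp [linField]⟩) ht₀ ht
  have h2 := h1.2
  simp only [evo_self] at h2
  exact h2

/-- scalar comparison: `A'' ≥ k² A`, `A 0 = A' 0 = 0` imply `A ≥ 0`, `A' ≥ 0`. -/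
theorem jacobi_cmp {T k : ℝ} {A A1 A2 : ℝ → ℝ} (hA : ∀ t, HasDerivAt A (A1 t) t)
    (hA1 : ∀ t, HasDerivAt A1 (A2 t) t) (h0 : A 0 = 0) (h1 : A1 0 = 0)
    (h2 : ∀ t ∈ Set.Icc 0 T, k ^ 2 * A t ≤ A2 t) : ∀ t ∈ Set.Icc 0 T, 0 ≤ A t ∧ 0 ≤ A1 t := by
  have mono : ∀ {g g' : ℝ → ℝ}, (∀ t, HasDerivAt g (g' t) t) → (∀ t ∈ Set.Icc 0 T, 0 ≤ g' t) →
      g 0 = 0 → ∀ t ∈ Set.Icc 0 T, 0 ≤ g t := by
    intro g g' hg hg' hg0 t ht
    have hm : MonotoneOn g (Set.Icc 0 T) :=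
      monotoneOn_of_deriv_nonneg (convex_Icc 0 T) (fun s _ => (hg s).continuousAt.continuousWithinAt)
        (fun s _ => (hg s).differentiableAt.differentiableWithinAt) (fun s hs => by
          rw [(hg s).deriv]
          exact hg' s (interior_subset hs))
    have := hm ⟨le_rfl, ht.1.trans ht.2⟩ ht ht.1
    rwa [hg0] at this
  have hexp : ∀ (c t : ℝ), HasDerivAt (fun t => Real.exp (c * t)) (Real.exp (c * t) * c) t := by
    intro c t
    have := ((hasDerivAt_id t).const_mul c).exp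
    simpa using this
  have s1 : ∀ t ∈ Set.Icc 0 T, 0 ≤ (A1 t + k * A t) * Real.exp (-k * t) := by
    refine mono (g' := fun t => (A2 t - k ^ 2 * A t) * Real.exp (-k * t)) (fun t => ?_)
      (fun t ht => mul_nonneg (sub_nonneg.2 (h2 t ht)) (Real.exp_pos _).le) (by simp [h0, h1])
    have := ((hA1 t).add ((hA t).const_mul k)).mul (hexp (-k) t)
    refine this.congr_deriv ?_
    simp only [Pi.add_apply]
    ring
  have s1' : ∀ t ∈ Set.Icc 0 T, 0 ≤ A1 t + k * A t := fun t ht =>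
    nonneg_of_mul_nonneg_left (s1 t ht) (Real.exp_pos _)
  have s2 : ∀ t ∈ Set.Icc 0 T, 0 ≤ A t * Real.exp (k * t) := by
    refine mono (g' := fun t => (A1 t + k * A t) * Real.exp (k * t)) (fun t => ?_)
      (fun t ht => mul_nonneg (s1' t ht) (Real.exp_pos _).le) (by simp [h0])
    have := (hA t).mul (hexp k t)
    refine this.congr_deriv ?_
    ring
  have s2' : ∀ t ∈ Set.Icc 0 T, 0 ≤ A t := fun t ht =>
    nonneg_of_mul_nonneg_left (s2 t ht) (Real.exp_pos _)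
  have s3 : ∀ t ∈ Set.Icc 0 T, 0 ≤ A1 t :=
    mono hA1 (fun t ht => (mul_nonneg (sq_nonneg k) (s2' t ht)).trans (h2 t ht)) h1
  exact fun t ht => ⟨s2' t ht, s3 t ht⟩

/-- **Jacobi type estimates.**  `x'' = - R(t) x` on `[0,T]`, `‖R‖ ≤ k²`, written as the first order
system `x' = y`, `y' = - R x`. -/
theorem jacobi_bounds {T k : ℝ} (hk : 0 < k) {R : ℝ → E →L[ℝ] E} {x y : ℝ → E}
    (hR : ∀ t ∈ Set.Icc 0 T, ‖R t‖ ≤ k ^ 2)
    (hx : ∀ t ∈ Set.Icc 0 T, HasDerivWithinAt x (y t) (Set.Icc 0 T) t)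
    (hy : ∀ t ∈ Set.Icc 0 T, HasDerivWithinAt y (-(R t (x t))) (Set.Icc 0 T) t) :
    ∀ t ∈ Set.Icc 0 T,
      ‖x t‖ ≤ ‖x 0‖ * Real.cosh (k * t) + ‖y 0‖ * (Real.sinh (k * t) / k) ∧
      ‖y t‖ ≤ ‖x 0‖ * (k * Real.sinh (k * t)) + ‖y 0‖ * Real.cosh (k * t) ∧
      ‖x t - x 0 - t • y 0‖ ≤
        ‖x 0‖ * (Real.cosh (k * t) - 1) + ‖y 0‖ * (Real.sinh (k * t) / k - t) ∧
      ‖y t - y 0‖ ≤ ‖x 0‖ * (k * Real.sinh (k * t)) + ‖y 0‖ * (Real.cosh (k * t) - 1) := by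
  intro t₁ ht₁
  have hT : 0 ≤ T := ht₁.1.trans ht₁.2
  have hcx : ContinuousOn x (Set.Icc 0 T) := fun t ht => (hx t ht).continuousWithinAt
  have hcy : ContinuousOn y (Set.Icc 0 T) := fun t ht => (hy t ht).continuousWithinAt
  -- continuous extension of `‖x‖`
  set a : ℝ → ℝ := fun t => ‖x (max 0 (min T t))‖ with ha
  have hac : Continuous a :=
    (hcx.comp_continuous (by fun_prop : Continuous fun t : ℝ => max 0 (min T t))
      (fun t => ⟨le_max_left _ _, max_le hT (min_le_left _ _)⟩)).norm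
  have haeq : ∀ t ∈ Set.Icc 0 T, a t = ‖x t‖ := by
    intro t ht
    simp only [ha]
    rw [min_eq_right ht.2, max_eq_right ht.1]
  set U1 : ℝ → ℝ := fun t => ∫ s in (0 : ℝ)..t, a s with hU1
  have hU1d : ∀ t, HasDerivAt U1 (a t) t := fun t => (hac.integral_hasStrictDerivAt 0 t).hasDerivAt
  have hU1c : Continuous U1 := continuous_iff_continuousAt.2 fun t => (hU1d t).continuousAt
  set U : ℝ → ℝ := fun t => ∫ s in (0 : ℝ)..t, U1 s with hU
  have hUd : ∀ t, HasDerivAt U (U1 t) t := fun t => (hU1c.integral_hasStrictDerivAt 0 t).hasDerivAt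
  have hright : ∀ {z : ℝ → E} {z' : E} {t : ℝ}, t ∈ Set.Ico 0 T →
      HasDerivWithinAt z z' (Set.Icc 0 T) t → HasDerivWithinAt z z' (Set.Ici t) t :=
    fun ht h => h.mono_of_mem_nhdsWithin (Icc_mem_nhdsGE_of_mem ht)
  -- (i)
  have hi : ∀ t ∈ Set.Icc 0 T, ‖y t - y 0‖ ≤ k ^ 2 * U1 t := by
    refine image_norm_le_of_norm_deriv_right_le_deriv_boundary (f := fun t => y t - y 0)
      (f' := fun t => -(R t (x t))) (B := fun t => k ^ 2 * U1 t) (B' := fun t => k ^ 2 * a t)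
      (hcy.sub continuousOn_const)
      (fun t ht => (hright ht (hy t ⟨ht.1, ht.2.le⟩)).sub_const (y 0)) (by simp [hU1])
      (fun t => (hU1d t).const_mul _) (fun t ht => ?_)
    rw [norm_neg, haeq t ⟨ht.1, ht.2.le⟩]
    exact ((R t).le_opNorm _).trans (mul_le_mul_of_nonneg_right (hR t ⟨ht.1, ht.2.le⟩) (norm_nonneg _))
  -- (ii)
  have hii : ∀ t ∈ Set.Icc 0 T, ‖x t - x 0 - t • y 0‖ ≤ k ^ 2 * U t := by
    refine image_norm_le_of_norm_deriv_right_le_deriv_boundary (f := fun t => x t - x 0 - t • y 0)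
      (f' := fun t => y t - y 0) (B := fun t => k ^ 2 * U t) (B' := fun t => k ^ 2 * U1 t)
      ((hcx.sub continuousOn_const).sub (continuousOn_id.smul continuousOn_const))
      (fun t ht => ?_) (by simp [hU])
      (fun t => (hUd t).const_mul _) (fun t ht => hi t ⟨ht.1, ht.2.le⟩)
    have h1 := (hright ht (hx t ⟨ht.1, ht.2.le⟩)).sub_const (x 0)
    have h2 : HasDerivWithinAt (fun t : ℝ => t • y 0) (y 0) (Set.Ici t) t := by
      have := ((hasDerivAt_id t).smul_const (y 0)).hasDerivWithinAt (s := Set.Ici t)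
      simpa using this
    exact h1.sub h2
  -- comparison functions
  set a0 := ‖x 0‖ with ha0
  set b0 := ‖y 0‖ with hb0
  have hk0 : k ≠ 0 := hk.ne'
  have hsinh : ∀ t, HasDerivAt (fun t => Real.sinh (k * t)) (Real.cosh (k * t) * k) t := by
    intro t
    have := ((hasDerivAt_id t).const_mul k).sinh
    simpa using this
  have hcosh : ∀ t, HasDerivAt (fun t => Real.cosh (k * t)) (Real.sinh (k * t) * k) t := by
    intro t
    have := ((hasDerivAt_id t).const_mul k).cosh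
    simpa using this
  have hcmp := jacobi_cmp (T := T) (k := k)
    (A := fun t => a0 * ((Real.cosh (k * t) - 1) / k ^ 2) +
      b0 * ((Real.sinh (k * t) / k - t) / k ^ 2) - U t)
    (A1 := fun t => a0 * (Real.sinh (k * t) / k) + b0 * ((Real.cosh (k * t) - 1) / k ^ 2) - U1 t)
    (A2 := fun t => a0 * Real.cosh (k * t) + b0 * (Real.sinh (k * t) / k) - a t)
    (fun t => by
      have h1 := ((((hcosh t).sub_const 1).div_const (k ^ 2)).const_mul a0).add
        (((((hsinh t).div_const k).sub (hasDerivAt_id t)).div_const (k ^ 2)).const_mul b0)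
      refine (h1.sub (hUd t)).congr_deriv ?_
      field_simp)
    (fun t => by
      have h1 := (((hsinh t).div_const k).const_mul a0).add
        ((((hcosh t).sub_const 1).div_const (k ^ 2)).const_mul b0)
      refine (h1.sub (hU1d t)).congr_deriv ?_
      field_simp)
    (by simp [hU]) (by simp [hU1])
    (fun t ht => by
      have h1 : a t ≤ a0 + t * b0 + k ^ 2 * U t := by
        rw [haeq t ht]
        have h2 : x t = (x t - x 0 - t • y 0) + x 0 + t • y 0 := by abel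
        calc ‖x t‖ = ‖(x t - x 0 - t • y 0) + x 0 + t • y 0‖ := by rw [← h2]
          _ ≤ ‖x t - x 0 - t • y 0‖ + ‖x 0‖ + ‖t • y 0‖ := norm_add₃_le
          _ ≤ k ^ 2 * U t + a0 + t * b0 := by
            rw [norm_smul, Real.norm_of_nonneg ht.1]
            linarith [hii t ht]
          _ = a0 + t * b0 + k ^ 2 * U t := by ring
      have h3 : k ^ 2 * (a0 * ((Real.cosh (k * t) - 1) / k ^ 2) +
          b0 * ((Real.sinh (k * t) / k - t) / k ^ 2) - U t) =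
          a0 * (Real.cosh (k * t) - 1) + b0 * (Real.sinh (k * t) / k - t) - k ^ 2 * U t := by
        field_simp
      rw [h3]
      linarith)
  obtain ⟨c1, c2⟩ := hcmp t₁ ht₁
  have d1 : k ^ 2 * U t₁ ≤ a0 * (Real.cosh (k * t₁) - 1) + b0 * (Real.sinh (k * t₁) / k - t₁) := by
    have h3 : k ^ 2 * (a0 * ((Real.cosh (k * t₁) - 1) / k ^ 2) +
        b0 * ((Real.sinh (k * t₁) / k - t₁) / k ^ 2) - U t₁) =
        a0 * (Real.cosh (k * t₁) - 1) + b0 * (Real.sinh (k * t₁) / k - t₁) - k ^ 2 * U t₁ := by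
      field_simp
    have := mul_nonneg (sq_nonneg k) c1
    rw [h3] at this
    linarith
  have d2 : k ^ 2 * U1 t₁ ≤ a0 * (k * Real.sinh (k * t₁)) + b0 * (Real.cosh (k * t₁) - 1) := by
    have h3 : k ^ 2 * (a0 * (Real.sinh (k * t₁) / k) + b0 * ((Real.cosh (k * t₁) - 1) / k ^ 2) -
        U1 t₁) = a0 * (k * Real.sinh (k * t₁)) + b0 * (Real.cosh (k * t₁) - 1) - k ^ 2 * U1 t₁ := by
      field_simp
    have := mul_nonneg (sq_nonneg k) c2
    rw [h3] at this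
    linarith
  have e3 := (hii t₁ ht₁).trans d1
  have e4 := (hi t₁ ht₁).trans d2
  refine ⟨?_, ?_, e3, e4⟩
  · have h2 : x t₁ = (x t₁ - x 0 - t₁ • y 0) + x 0 + t₁ • y 0 := by abel
    calc ‖x t₁‖ = ‖(x t₁ - x 0 - t₁ • y 0) + x 0 + t₁ • y 0‖ := by rw [← h2]
      _ ≤ ‖x t₁ - x 0 - t₁ • y 0‖ + ‖x 0‖ + ‖t₁ • y 0‖ := norm_add₃_le
      _ ≤ a0 * Real.cosh (k * t₁) + b0 * (Real.sinh (k * t₁) / k) := by
        rw [norm_smul, Real.norm_of_nonneg ht₁.1]
        linarith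
  · have h2 : y t₁ = (y t₁ - y 0) + y 0 := by abel
    calc ‖y t₁‖ = ‖(y t₁ - y 0) + y 0‖ := by rw [← h2]
      _ ≤ ‖y t₁ - y 0‖ + ‖y 0‖ := norm_add_le _ _
      _ ≤ a0 * (k * Real.sinh (k * t₁)) + b0 * Real.cosh (k * t₁) := by linarith

/-- elementary bounds to use with `jacobi_bounds`. -/
theorem sinh_sub_le {u : ℝ} (hu : 0 ≤ u) (hu1 : u ≤ 1) : Real.sinh u - u ≤ (2 / 9) * u ^ 3 := by
  have h1 := Real.exp_bound (x := u) (by rw [abs_of_nonneg hu]; exact hu1) (n := 3) (by norm_num)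
  have h2 := Real.exp_bound (x := -u) (by rw [abs_neg, abs_of_nonneg hu]; exact hu1) (n := 3)
    (by norm_num)
  rw [abs_neg] at h2
  rw [abs_of_nonneg hu] at h1 h2
  simp only [Finset.sum_range_succ, Finset.sum_range_zero, Nat.factorial] at h1 h2
  have h3 := (abs_le.1 h1).2
  have h4 := (abs_le.1 h2).1
  rw [Real.sinh_eq]
  norm_num at h3 h4 ⊢
  linarith

theorem cosh_sub_one_le {u : ℝ} (hu : |u| ≤ 1) : Real.cosh u - 1 ≤ (2 / 3) * u ^ 2 := by
  have h1 := Real.exp_bound (x := u) hu (n := 4) (by norm_num)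
  have h2 := Real.exp_bound (x := -u) (by rw [abs_neg]; exact hu) (n := 4) (by norm_num)
  rw [abs_neg] at h2
  simp only [Finset.sum_range_succ, Finset.sum_range_zero, Nat.factorial] at h1 h2
  have h3 := (abs_le.1 h1).2
  have h4 := (abs_le.1 h2).2
  have h5 : |u| ^ 4 ≤ u ^ 2 := by
    have h6 : |u| ^ 4 = u ^ 2 * u ^ 2 := by rw [← sq_abs u]; ring
    have h7 : u ^ 2 ≤ 1 := by rw [← sq_abs u]; exact pow_le_one₀ (abs_nonneg u) hu
    rw [h6]
    nlinarith [sq_nonneg u]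
  rw [Real.cosh_eq]
  norm_num at h3 h4 ⊢
  rw [show (-u) ^ 3 = -(u ^ 3) by ring] at h4
  linarith [sq_nonneg u]

end C

end Claimed.Agent.R316.ODE
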