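import Claimed.Agent.R316.Base.ODE.Flow

/-!
# `BP-G2` D: second order systems `x'' = B x (x', x')`

Leaf `G2-SPRAY` (PROVED).  Everything follows from section A.
-/

set_option autoImplicit false
set_option linter.unusedSectionVars false
open scoped ContDiff Topology

namespace Claimed.Agent.R316.ODE

/-! ## D. second order systems -/

section D

variable {E : Type*} [NormedAddCommGroup E] [NormedSpace ℝ E] [CompleteSpace E]
variable {B : E → E →L[ℝ] E →L[ℝ] E} {U : Set E} {t : ℝ} {x v : E}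

theorem contDiffOn_spray {n : WithTop ℕ∞} (hB : ContDiffOn ℝ n B U) :
    ContDiffOn ℝ n (spray B) (U ×ˢ (Set.univ : Set E)) := by
  have h1 : ContDiffOn ℝ n (fun q : E × E => B q.1) (U ×ˢ (Set.univ : Set E)) :=
    hB.comp contDiffOn_fst fun q hq => hq.1
  exact contDiffOn_snd.prodMk ((h1.clm_apply contDiffOn_snd).clm_apply contDiffOn_snd)

/-- the first component of a flow line of the spray has the second one as velocity. -/
theorem hasDerivAt_spray_fst (hU : IsOpen U) (hB : ContDiffOn ℝ 1 B U)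
    (h : (t, (x, v)) ∈ dom (spray B) (U ×ˢ (Set.univ : Set E))) :
    HasDerivAt (fun r => (fl (spray B) (U ×ˢ (Set.univ : Set E)) r (x, v)).1)
      (fl (spray B) (U ×ˢ (Set.univ : Set E)) t (x, v)).2 t :=
  (hasDerivAt_fl (hU.prod isOpen_univ) (contDiffOn_spray hB) h).fst

theorem hasDerivAt_spray_snd (hU : IsOpen U) (hB : ContDiffOn ℝ 1 B U)
    (h : (t, (x, v)) ∈ dom (spray B) (U ×ˢ (Set.univ : Set E))) :
    HasDerivAt (fun r => (fl (spray B) (U ×ˢ (Set.univ : Set E)) r (x, v)).2)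
      (B (fl (spray B) (U ×ˢ (Set.univ : Set E)) t (x, v)).1
        (fl (spray B) (U ×ˢ (Set.univ : Set E)) t (x, v)).2
        (fl (spray B) (U ×ˢ (Set.univ : Set E)) t (x, v)).2) t :=
  (hasDerivAt_fl (hU.prod isOpen_univ) (contDiffOn_spray hB) h).snd

/-- a solution of the second order system is a flow line of the spray. -/
theorem eq_fl_spray (hU : IsOpen U) (hB : ContDiffOn ℝ 1 B U) {J : Set ℝ} (hJ : J.OrdConnected)
    {c w : ℝ → E} (hc : ∀ r ∈ J, c r ∈ U ∧ HasDerivWithinAt c (w r) J r)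
    (hw : ∀ r ∈ J, HasDerivWithinAt w (B (c r) (w r) (w r)) J r) {t₀ : ℝ} (ht₀ : t₀ ∈ J)
    (ht : t ∈ J) :
    (t - t₀, (c t₀, w t₀)) ∈ dom (spray B) (U ×ˢ (Set.univ : Set E)) ∧
      fl (spray B) (U ×ˢ (Set.univ : Set E)) (t - t₀) (c t₀, w t₀) = (c t, w t) :=
  eq_fl_of_hasDerivWithinAt (hU.prod isOpen_univ) (contDiffOn_spray hB) hJ
    (c := fun r => (c r, w r))
    (fun r hr => ⟨⟨(hc r hr).1, trivial⟩, (hc r hr).2.prodMk (hw r hr)⟩) ht₀ ht

/-- rescaling of a solution of the spray. -/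
theorem IsSol.spray_smul (a : ℝ) {c : ℝ → E × E}
    (h : IsSol (spray B) (U ×ˢ (Set.univ : Set E)) (a * t) (x, v) c) :
    IsSol (spray B) (U ×ˢ (Set.univ : Set E)) t (x, a • v)
      (fun r => ((c (a * r)).1, a • (c (a * r)).2)) := by
  have h1 := h.smul a
  refine ⟨by simp only [mul_zero, h.1], fun r hr => ⟨⟨(h1.2 r hr).1.1, trivial⟩, ?_⟩⟩
  have h2 := (h1.2 r hr).2
  have h3 : HasDerivWithinAt (fun r => (c (a * r)).1) (a • (c (a * r)).2) (Set.uIcc 0 t) r := h2.fst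
  have h4 : HasDerivWithinAt (fun r => (c (a * r)).2)
      (a • B (c (a * r)).1 (c (a * r)).2 (c (a * r)).2) (Set.uIcc 0 t) r := h2.snd
  have h5 := h3.prodMk (h4.const_smul a)
  refine h5.congr_deriv ?_
  simp [spray]

/-- **homogeneity** of the spray. -/
theorem mem_dom_spray_smul (a : ℝ) :
    (t, (x, a • v)) ∈ dom (spray B) (U ×ˢ (Set.univ : Set E)) ↔
      (a * t, (x, v)) ∈ dom (spray B) (U ×ˢ (Set.univ : Set E)) := by
  constructor
  · intro h
    rcases eq_or_ne a 0 with rfl | ha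
    · rw [zero_mul]
      exact zero_mem_dom.2 ⟨(mem_of_mem_dom h).1, trivial⟩
    · obtain ⟨c, hc⟩ := h
      have hc' : IsSol (spray B) (U ×ˢ (Set.univ : Set E)) (a⁻¹ * (a * t)) (x, a • v) c := by
        rwa [inv_mul_cancel_left₀ ha]
      have := hc'.spray_smul a⁻¹
      rw [inv_smul_smul₀ ha] at this
      exact ⟨_, this⟩
  · rintro ⟨c, hc⟩
    exact ⟨_, hc.spray_smul a⟩

theorem fl_spray_smul (hU : IsOpen U) (hB : ContDiffOn ℝ 1 B U) (a : ℝ)
    (h : (a * t, (x, v)) ∈ dom (spray B) (U ×ˢ (Set.univ : Set E))) :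
    fl (spray B) (U ×ˢ (Set.univ : Set E)) t (x, a • v) =
      ((fl (spray B) (U ×ˢ (Set.univ : Set E)) (a * t) (x, v)).1,
        a • (fl (spray B) (U ×ˢ (Set.univ : Set E)) (a * t) (x, v)).2) := by
  obtain ⟨c, hc, he⟩ := dom_spec h
  rw [he, ((hc.spray_smul a).fl_eq (hU.prod isOpen_univ) (contDiffOn_spray hB) t
    Set.right_mem_uIcc).2]

end D

end Claimed.Agent.R316.ODE
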