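import Mathlib

/-!
# `BP-G2` core 1: the superposition (Nemytskii) operator on `C(X, E)`, `X` compact

For `f : E → F` of class `C^n` on the set `Ω` (an open set), the map `γ ↦ f ∘ γ` is of class `C^n`
on the set `curvesIn X Ω` of all `γ : C(X, E)` with values in `Ω`; its derivative at `γ` is the
pointwise application of `Df ∘ γ`.  Everything over `𝕜 = ℝ` or `ℂ`.
-/

set_option autoImplicit false
open scoped ContDiff Topology

namespace Claimed.Agent.R316.ODE

section Nem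

universe u

variable {𝕜 : Type*} [RCLike 𝕜]
variable {X : Type*} [TopologicalSpace X] [CompactSpace X]
variable {E F : Type u} [NormedAddCommGroup E] [NormedSpace 𝕜 E]
  [NormedAddCommGroup F] [NormedSpace 𝕜 F]

variable (X) in
/-- the continuous maps with values in `Ω`. -/
def curvesIn (Ω : Set E) : Set C(X, E) := {γ | ∀ s, γ s ∈ Ω}

open Classical in
/-- the superposition operator `γ ↦ f ∘ γ` (junk value `0` if `f ∘ γ` is not continuous). -/
noncomputable def nem (f : E → F) (γ : C(X, E)) : C(X, F) :=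
  if h : Continuous (fun s => f (γ s)) then ⟨fun s => f (γ s), h⟩ else 0

omit [CompactSpace X] in
theorem nem_apply {f : E → F} {Ω : Set E} (hf : ContinuousOn f Ω) {γ : C(X, E)}
    (hγ : γ ∈ curvesIn X Ω) (s : X) : nem f γ s = f (γ s) := by
  have h : Continuous (fun s => f (γ s)) := hf.comp_continuous γ.continuous hγ
  simp [nem, h]

theorem isOpen_curvesIn {Ω : Set E} (hΩ : IsOpen Ω) : IsOpen (curvesIn X Ω) := by
  have h := ContinuousMap.isOpen_setOfPred_mapsTo (X := X) (Y := E) isCompact_univ hΩ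
  have h2 : curvesIn X Ω = {f : C(X, E) | Set.MapsTo f Set.univ Ω} := by
    ext γ; simp [curvesIn, Set.MapsTo]
  rw [h2]; exact h

/-- uniform continuity of `f` near the compact image of `γ`. -/
theorem nem_exists_delta {f : E → F} {Ω : Set E} (hΩ : IsOpen Ω) (hf : ContinuousOn f Ω)
    {γ : C(X, E)} (hγ : γ ∈ curvesIn X Ω) {ε : ℝ} (hε : 0 < ε) :
    ∃ δ > 0, ∀ s y, dist y (γ s) < δ → y ∈ Ω ∧ dist (f y) (f (γ s)) < ε := by
  have hK : IsCompact (Set.range γ) := isCompact_range γ.continuous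
  have hKΩ : Set.range γ ⊆ Ω := by rintro _ ⟨s, rfl⟩; exact hγ s
  obtain ⟨δ₁, hδ₁, h₁⟩ := hK.exists_thickening_subset_open hΩ hKΩ
  have h2 := hK.uniformContinuousAt_of_continuousAt f
    (fun a ha => hf.continuousAt (hΩ.mem_nhds (hKΩ ha))) (Metric.dist_mem_uniformity hε)
  obtain ⟨δ₂, hδ₂, h₂⟩ := Metric.mem_uniformity_dist.1 h2
  refine ⟨min δ₁ δ₂, lt_min hδ₁ hδ₂, fun s y hy => ⟨?_, ?_⟩⟩
  · apply h₁
    rw [Metric.mem_thickening_iff]
    exact ⟨γ s, ⟨s, rfl⟩, hy.trans_le (min_le_left _ _)⟩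
  · have h3 := @h₂ (γ s) y (by rw [dist_comm]; exact hy.trans_le (min_le_right _ _)) ⟨s, rfl⟩
    rw [dist_comm]; exact h3

theorem continuousOn_nem {f : E → F} {Ω : Set E} (hΩ : IsOpen Ω) (hf : ContinuousOn f Ω) :
    ContinuousOn (nem (X := X) f) (curvesIn X Ω) := by
  intro γ hγ
  refine ContinuousAt.continuousWithinAt ?_
  rw [Metric.continuousAt_iff]
  intro ε hε
  obtain ⟨δ, hδ, h⟩ := nem_exists_delta hΩ hf hγ (half_pos hε)
  refine ⟨δ, hδ, fun γ' hγ' => ?_⟩
  have h1 : ∀ s, dist (γ' s) (γ s) < δ := fun s => (ContinuousMap.dist_apply_le_dist s).trans_lt hγ'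
  have hγ'Ω : γ' ∈ curvesIn X Ω := fun s => (h s _ (h1 s)).1
  refine lt_of_le_of_lt ?_ (half_lt_self hε)
  rw [ContinuousMap.dist_le (half_pos hε).le]
  intro s
  rw [nem_apply hf hγ'Ω, nem_apply hf hγ]
  exact (h s _ (h1 s)).2.le

/-- pointwise application `(A, h) ↦ (s ↦ A s (h s))` as a continuous bilinear map. -/
noncomputable def appL : C(X, E →L[𝕜] F) →L[𝕜] C(X, E) →L[𝕜] C(X, F) :=
  LinearMap.mkContinuous₂
    (LinearMap.mk₂ 𝕜
      (fun (A : C(X, E →L[𝕜] F)) (h : C(X, E)) =>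
        (⟨fun s => A s (h s), A.continuous.clm_apply h.continuous⟩ : C(X, F)))
      (by intro A A' h; ext s; simp)
      (by intro c A h; ext s; simp)
      (by intro A h h'; ext s; simp)
      (by intro c A h; ext s; simp))
    1
    (by
      intro A h
      rw [ContinuousMap.norm_le _ (by positivity)]
      intro s
      simp only [LinearMap.mk₂_apply, ContinuousMap.coe_mk, one_mul]
      calc ‖A s (h s)‖ ≤ ‖A s‖ * ‖h s‖ := ContinuousLinearMap.le_opNorm _ _
        _ ≤ ‖A‖ * ‖h‖ := by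
          gcongr
          · exact A.norm_coe_le_norm s
          · exact h.norm_coe_le_norm s)

@[simp] theorem appL_apply (A : C(X, E →L[𝕜] F)) (h : C(X, E)) (s : X) :
    appL A h s = A s (h s) := rfl

/-- the derivative of the superposition operator. -/
theorem hasFDerivAt_nem {f : E → F} {Ω : Set E} (hΩ : IsOpen Ω) (hf : DifferentiableOn 𝕜 f Ω)
    (hf' : ContinuousOn (fderiv 𝕜 f) Ω) {γ : C(X, E)} (hγ : γ ∈ curvesIn X Ω) :
    HasFDerivAt (nem (X := X) f) (appL (nem (fderiv 𝕜 f) γ)) γ := by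
  let _ : NormedSpace ℝ E := .restrictScalars ℝ 𝕜 E
  rw [hasFDerivAt_iff_isLittleO, Asymptotics.isLittleO_iff]
  intro c hc
  obtain ⟨δ, hδ, h⟩ := nem_exists_delta hΩ hf' hγ hc
  filter_upwards [Metric.ball_mem_nhds γ hδ] with γ' hγ'
  have h1 : ∀ s, dist (γ' s) (γ s) < δ := fun s => (ContinuousMap.dist_apply_le_dist s).trans_lt hγ'
  have hγ'Ω : γ' ∈ curvesIn X Ω := fun s => (h s _ (h1 s)).1
  rw [ContinuousMap.norm_le _ (by positivity)]
  intro s
  simp only [ContinuousMap.sub_apply, appL_apply]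
  rw [nem_apply hf.continuousOn hγ'Ω, nem_apply hf.continuousOn hγ, nem_apply hf' hγ]
  have h2 : ‖f (γ' s) - f (γ s) - fderiv 𝕜 f (γ s) (γ' s - γ s)‖ ≤ c * ‖γ' s - γ s‖ := by
    refine Convex.norm_image_sub_le_of_norm_hasFDerivWithin_le' (𝕜 := 𝕜)
      (s := Metric.ball (γ s) δ) (f' := fderiv 𝕜 f) ?_ ?_ (convex_ball _ _)
      (Metric.mem_ball_self hδ) (h1 s)
    · intro y hy
      exact ((hf y (h s y hy).1).differentiableAt (hΩ.mem_nhds (h s y hy).1)).hasFDerivAt.hasFDerivWithinAt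
    · intro y hy
      rw [← dist_eq_norm]
      exact (h s y hy).2.le
  refine h2.trans (mul_le_mul_of_nonneg_left ?_ hc.le)
  exact (γ' - γ).norm_coe_le_norm s

theorem contDiffOn_nem_nat (n : ℕ) : ∀ {F : Type u} [NormedAddCommGroup F] [NormedSpace 𝕜 F]
    {f : E → F} {Ω : Set E}, IsOpen Ω → ContDiffOn 𝕜 n f Ω →
    ContDiffOn 𝕜 n (nem (X := X) f) (curvesIn X Ω) := by
  induction n with
  | zero =>
    intro F _ _ f Ω hΩ hf
    rw [Nat.cast_zero, contDiffOn_zero] at hf ⊢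
    exact continuousOn_nem hΩ hf
  | succ n ih =>
    intro F _ _ f Ω hΩ hf
    rw [Nat.cast_succ, contDiffOn_succ_iff_fderiv_of_isOpen hΩ] at hf
    rw [Nat.cast_succ, contDiffOn_succ_iff_fderiv_of_isOpen (isOpen_curvesIn hΩ)]
    obtain ⟨hd, -, hc⟩ := hf
    have hder : ∀ γ ∈ curvesIn X Ω,
        HasFDerivAt (nem (X := X) f) (appL (nem (fderiv 𝕜 f) γ)) γ := fun γ hγ =>
      hasFDerivAt_nem hΩ hd hc.continuousOn hγ
    refine ⟨fun γ hγ => (hder γ hγ).differentiableAt.differentiableWithinAt, by simp, ?_⟩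
    have h0 : ContDiff 𝕜 n (appL (𝕜 := 𝕜) (X := X) (E := E) (F := F)) :=
      ContinuousLinearMap.contDiff _
    have h1 : ContDiffOn 𝕜 n (fun γ : C(X, E) => appL (nem (fderiv 𝕜 f) γ)) (curvesIn X Ω) :=
      h0.comp_contDiffOn (ih hΩ hc)
    exact h1.congr fun γ hγ => (hder γ hγ).fderiv

/-- **the superposition operator of a `C^n` map is `C^n`.** -/
theorem contDiffOn_nem {n : ℕ∞} {f : E → F} {Ω : Set E} (hΩ : IsOpen Ω)
    (hf : ContDiffOn 𝕜 n f Ω) : ContDiffOn 𝕜 n (nem (X := X) f) (curvesIn X Ω) := by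
  rw [contDiffOn_iff_forall_nat_le] at hf ⊢
  exact fun m hm => contDiffOn_nem_nat m hΩ (hf m hm)

end Nem

end Claimed.Agent.R316.ODE
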