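import Claimed.Agent.R316.Base.ODE.Defs

/-!
# `BP-G2` A1: maximal flow, elementary part (uniqueness, group law, rescaling, naturality)

Leaf `G2-BASIC`.  No smooth dependence is used here; uniqueness comes from Gronwall
(`ODE_solution_unique_of_mem_Icc_right`) with a Lipschitz constant of `f` on the compact union of
the two curves (`LocallyLipschitzOn.exists_lipschitzOnWith_of_compact`).
-/

set_option autoImplicit false
open scoped ContDiff Topology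

namespace Claimed.Agent.R316.ODE

section A

variable {E : Type*} [NormedAddCommGroup E] [NormedSpace ℝ E]
variable {f : E → E} {Ω : Set E} {t s : ℝ} {x : E}

/-- `c` solves `x' = f x` on the set `J` with values in `Ω`. -/
def SolOn (f : E → E) (Ω : Set E) (J : Set ℝ) (c : ℝ → E) : Prop :=
  ∀ r ∈ J, c r ∈ Ω ∧ HasDerivWithinAt c (f (c r)) J r

theorem SolOn.mono {J J' : Set ℝ} {c : ℝ → E} (h : SolOn f Ω J c) (hJ : J' ⊆ J) :
    SolOn f Ω J' c := fun r hr => ⟨(h r (hJ hr)).1, (h r (hJ hr)).2.mono hJ⟩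

theorem SolOn.continuousOn {J : Set ℝ} {c : ℝ → E} (h : SolOn f Ω J c) : ContinuousOn c J :=
  fun r hr => (h r hr).2.continuousWithinAt

theorem SolOn.congr {J : Set ℝ} {c c' : ℝ → E} (h : SolOn f Ω J c) (hc : Set.EqOn c' c J) :
    SolOn f Ω J c' := fun r hr => by
  rw [hc hr]
  exact ⟨(h r hr).1, (h r hr).2.congr hc (hc hr)⟩

theorem isSol_iff {c : ℝ → E} : IsSol f Ω t x c ↔ c 0 = x ∧ SolOn f Ω (Set.uIcc 0 t) c := Iff.rfl

/-- affine reparametrisation. -/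
theorem SolOn.comp_affine {J J' : Set ℝ} {c : ℝ → E} (h : SolOn f Ω J c) (a b : ℝ)
    (hmap : Set.MapsTo (fun r => a * r + b) J' J) :
    SolOn (fun y => a • f y) Ω J' (fun r => c (a * r + b)) := by
  intro r hr
  refine ⟨(h _ (hmap hr)).1, ?_⟩
  have h1 : HasDerivWithinAt (fun r : ℝ => a * r + b) a J' r := by
    simpa using (((hasDerivAt_id r).const_mul a).add_const b).hasDerivWithinAt
  exact HasDerivWithinAt.scomp r (h _ (hmap hr)).2 h1 hmap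

theorem SolOn.comp_add {J J' : Set ℝ} {c : ℝ → E} (h : SolOn f Ω J c) (b : ℝ)
    (hmap : Set.MapsTo (fun r => r + b) J' J) : SolOn f Ω J' (fun r => c (r + b)) := by
  have h1 := h.comp_affine 1 b (J' := J') (by simpa using hmap)
  simpa using h1

/-- a `C^1` field is Lipschitz on compact subsets of `Ω`. -/
theorem exists_lipschitzOnWith_of_isCompact (hΩ : IsOpen Ω) (hf : ContDiffOn ℝ 1 f Ω) {K : Set E}
    (hK : IsCompact K) (hKΩ : K ⊆ Ω) : ∃ L, LipschitzOnWith L f K := by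
  refine LocallyLipschitzOn.exists_lipschitzOnWith_of_compact hK fun y hy => ?_
  obtain ⟨L, u, hu, hL⟩ := (hf.contDiffAt (hΩ.mem_nhds (hKΩ hy))).exists_lipschitzOnWith
  exact ⟨L, u, mem_nhdsWithin_of_mem_nhds hu, hL⟩

/-- uniqueness of solutions on an interval. -/
theorem SolOn.eqOn (hΩ : IsOpen Ω) (hf : ContDiffOn ℝ 1 f Ω) {J : Set ℝ} (hJ : J.OrdConnected)
    {c₁ c₂ : ℝ → E} (h₁ : SolOn f Ω J c₁) (h₂ : SolOn f Ω J c₂) {t₀ : ℝ} (ht₀ : t₀ ∈ J)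
    (h0 : c₁ t₀ = c₂ t₀) : Set.EqOn c₁ c₂ J := by
  intro t ht
  rcases le_total t₀ t with hle | hle
  · have hsub : Set.Icc t₀ t ⊆ J := hJ.out ht₀ ht
    set K : Set E := c₁ '' Set.Icc t₀ t ∪ c₂ '' Set.Icc t₀ t with hK
    have hKc : IsCompact K :=
      (isCompact_Icc.image_of_continuousOn (h₁.continuousOn.mono hsub)).union
        (isCompact_Icc.image_of_continuousOn (h₂.continuousOn.mono hsub))
    have hKΩ : K ⊆ Ω := by
      rintro _ (⟨r, hr, rfl⟩ | ⟨r, hr, rfl⟩)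
      · exact (h₁ r (hsub hr)).1
      · exact (h₂ r (hsub hr)).1
    obtain ⟨L, hL⟩ := exists_lipschitzOnWith_of_isCompact hΩ hf hKc hKΩ
    have hd : ∀ {c : ℝ → E}, SolOn f Ω J c → ∀ r ∈ Set.Ico t₀ t,
        HasDerivWithinAt c (f (c r)) (Set.Ici r) r := by
      intro c hc r hr
      refine (hc r (hsub ⟨hr.1, hr.2.le⟩)).2.mono_of_mem_nhdsWithin ?_
      exact Filter.mem_of_superset (Icc_mem_nhdsGE_of_mem hr) hsub
    exact ODE_solution_unique_of_mem_Icc_right (v := fun _ => f) (s := fun _ => K) (K := L)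
      (fun _ _ => hL) (h₁.continuousOn.mono hsub) (hd h₁)
      (fun r hr => Or.inl ⟨r, ⟨hr.1, hr.2.le⟩, rfl⟩) (h₂.continuousOn.mono hsub) (hd h₂)
      (fun r hr => Or.inr ⟨r, ⟨hr.1, hr.2.le⟩, rfl⟩) h0 ⟨hle, le_rfl⟩
  · have hsub : Set.Icc t t₀ ⊆ J := hJ.out ht ht₀
    set K : Set E := c₁ '' Set.Icc t t₀ ∪ c₂ '' Set.Icc t t₀ with hK
    have hKc : IsCompact K :=
      (isCompact_Icc.image_of_continuousOn (h₁.continuousOn.mono hsub)).union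
        (isCompact_Icc.image_of_continuousOn (h₂.continuousOn.mono hsub))
    have hKΩ : K ⊆ Ω := by
      rintro _ (⟨r, hr, rfl⟩ | ⟨r, hr, rfl⟩)
      · exact (h₁ r (hsub hr)).1
      · exact (h₂ r (hsub hr)).1
    obtain ⟨L, hL⟩ := exists_lipschitzOnWith_of_isCompact hΩ hf hKc hKΩ
    have hd : ∀ {c : ℝ → E}, SolOn f Ω J c → ∀ r ∈ Set.Ioc t t₀,
        HasDerivWithinAt c (f (c r)) (Set.Iic r) r := by
      intro c hc r hr
      refine (hc r (hsub ⟨hr.1.le, hr.2⟩)).2.mono_of_mem_nhdsWithin ?_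
      exact Filter.mem_of_superset (Icc_mem_nhdsLE_of_mem hr) hsub
    exact ODE_solution_unique_of_mem_Icc_left (v := fun _ => f) (s := fun _ => K) (K := L)
      (fun _ _ => hL) (h₁.continuousOn.mono hsub) (hd h₁)
      (fun r hr => Or.inl ⟨r, ⟨hr.1.le, hr.2⟩, rfl⟩) (h₂.continuousOn.mono hsub) (hd h₂)
      (fun r hr => Or.inr ⟨r, ⟨hr.1.le, hr.2⟩, rfl⟩) h0 ⟨le_rfl, hle⟩

/-- gluing of two solutions on closed intervals with a common point. -/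
theorem SolOn.glue (hΩ : IsOpen Ω) (hf : ContDiffOn ℝ 1 f Ω) {J₁ J₂ : Set ℝ}
    (hJ₁ : J₁.OrdConnected) (hJ₂ : J₂.OrdConnected) (hc₁ : IsClosed J₁) (hc₂ : IsClosed J₂)
    {c₁ c₂ : ℝ → E} (h₁ : SolOn f Ω J₁ c₁) (h₂ : SolOn f Ω J₂ c₂) {t₀ : ℝ} (h01 : t₀ ∈ J₁)
    (h02 : t₀ ∈ J₂) (h0 : c₁ t₀ = c₂ t₀) :
    ∃ c, Set.EqOn c c₁ J₁ ∧ Set.EqOn c c₂ J₂ ∧ SolOn f Ω (J₁ ∪ J₂) c := by
  classical
  have hag : Set.EqOn c₁ c₂ (J₁ ∩ J₂) :=
    SolOn.eqOn hΩ hf (hJ₁.inter hJ₂) (h₁.mono Set.inter_subset_left)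
      (h₂.mono Set.inter_subset_right) ⟨h01, h02⟩ h0
  set c : ℝ → E := fun r => if r ∈ J₁ then c₁ r else c₂ r with hc
  have e₁ : Set.EqOn c c₁ J₁ := fun r hr => by simp [hc, hr]
  have e₂ : Set.EqOn c c₂ J₂ := fun r hr => by
    by_cases h : r ∈ J₁
    · simp only [hc, h, if_true]; exact hag ⟨h, hr⟩
    · simp [hc, h]
  have s₁ : SolOn f Ω J₁ c := h₁.congr e₁
  have s₂ : SolOn f Ω J₂ c := h₂.congr e₂
  refine ⟨c, e₁, e₂, fun r hr => ?_⟩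
  have hΩr : c r ∈ Ω := by
    rcases hr with hr | hr
    · exact (s₁ r hr).1
    · exact (s₂ r hr).1
  refine ⟨hΩr, ?_⟩
  have d₁ : HasDerivWithinAt c (f (c r)) J₁ r := by
    by_cases h : r ∈ J₁
    · exact (s₁ r h).2
    · exact HasFDerivWithinAt.of_notMem_closure (by rwa [hc₁.closure_eq])
  have d₂ : HasDerivWithinAt c (f (c r)) J₂ r := by
    by_cases h : r ∈ J₂
    · exact (s₂ r h).2
    · exact HasFDerivWithinAt.of_notMem_closure (by rwa [hc₂.closure_eq])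
  exact d₁.union d₂

theorem IsSol.mono {c : ℝ → E} (h : IsSol f Ω t x c) (hs : s ∈ Set.uIcc 0 t) : IsSol f Ω s x c :=
  ⟨h.1, SolOn.mono h.2 (Set.uIcc_subset_uIcc_left hs)⟩

theorem dom_spec (h : (t, x) ∈ dom f Ω) : ∃ c, IsSol f Ω t x c ∧ fl f Ω t x = c t := by
  have h' : ∃ c, IsSol f Ω t x c := h
  exact ⟨h'.choose, h'.choose_spec, by simp [fl, h']⟩

theorem fl_of_not_mem (h : (t, x) ∉ dom f Ω) : fl f Ω t x = x := by
  have h' : ¬ ∃ c, IsSol f Ω t x c := h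
  simp [fl, h']

/-- two solutions coincide. -/
theorem IsSol.eqOn (hΩ : IsOpen Ω) (hf : ContDiffOn ℝ 1 f Ω) {c₁ c₂ : ℝ → E}
    (h₁ : IsSol f Ω t x c₁) (h₂ : IsSol f Ω t x c₂) : Set.EqOn c₁ c₂ (Set.uIcc 0 t) :=
  SolOn.eqOn hΩ hf Set.ordConnected_uIcc h₁.2 h₂.2 Set.left_mem_uIcc (h₁.1.trans h₂.1.symm)

/-- a solution is the flow line. -/
theorem IsSol.fl_eq (hΩ : IsOpen Ω) (hf : ContDiffOn ℝ 1 f Ω) {c : ℝ → E}
    (h : IsSol f Ω t x c) : ∀ s ∈ Set.uIcc 0 t, (s, x) ∈ dom f Ω ∧ fl f Ω s x = c s := by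
  intro s hs
  have hd : (s, x) ∈ dom f Ω := ⟨c, h.mono hs⟩
  obtain ⟨c', hc', he⟩ := dom_spec hd
  exact ⟨hd, he.trans (hc'.eqOn hΩ hf (h.mono hs) Set.right_mem_uIcc)⟩

theorem zero_mem_dom : ((0 : ℝ), x) ∈ dom f Ω ↔ x ∈ Ω := by
  constructor
  · rintro ⟨c, h0, h⟩
    have := (h 0 Set.left_mem_uIcc).1
    rwa [h0] at this
  · intro hx
    refine ⟨fun r => x + r • f x, by simp, fun r hr => ?_⟩
    have hr0 : r = 0 := by simpa using hr
    subst hr0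
    refine ⟨by simpa using hx, ?_⟩
    have h1 : HasDerivAt (fun r : ℝ => x + r • f x) (f x) 0 := by
      simpa using ((hasDerivAt_id (0 : ℝ)).smul_const (f x)).const_add x
    simpa using h1.hasDerivWithinAt

theorem fl_zero : fl f Ω 0 x = x := by
  by_cases h : ((0 : ℝ), x) ∈ dom f Ω
  · obtain ⟨c, hc, he⟩ := dom_spec h
    rw [he, hc.1]
  · exact fl_of_not_mem h

theorem mem_of_mem_dom (h : (t, x) ∈ dom f Ω) : x ∈ Ω := by
  obtain ⟨c, h0, h⟩ := h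
  have := (h 0 Set.left_mem_uIcc).1
  rwa [h0] at this

theorem mem_dom_of_mem_uIcc (h : (t, x) ∈ dom f Ω) (hs : s ∈ Set.uIcc 0 t) : (s, x) ∈ dom f Ω := by
  obtain ⟨c, hc⟩ := h
  exact ⟨c, hc.mono hs⟩

theorem fl_mem (h : (t, x) ∈ dom f Ω) : fl f Ω t x ∈ Ω := by
  obtain ⟨c, hc, he⟩ := dom_spec h
  rw [he]
  exact (hc.2 t Set.right_mem_uIcc).1

/-- uniqueness on an arbitrary interval, arbitrary base time. -/
theorem eq_fl_of_hasDerivWithinAt (hΩ : IsOpen Ω) (hf : ContDiffOn ℝ 1 f Ω) {J : Set ℝ}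
    (hJ : J.OrdConnected) {c : ℝ → E}
    (hc : ∀ r ∈ J, c r ∈ Ω ∧ HasDerivWithinAt c (f (c r)) J r) {t₀ : ℝ} (ht₀ : t₀ ∈ J)
    (ht : t ∈ J) : (t - t₀, c t₀) ∈ dom f Ω ∧ fl f Ω (t - t₀) (c t₀) = c t := by
  have hmap : Set.MapsTo (fun r => r + t₀) (Set.uIcc 0 (t - t₀)) J := by
    intro r hr
    apply hJ.uIcc_subset ht₀ ht
    have := Set.image_add_const_uIcc t₀ 0 (t - t₀)
    have h2 : r + t₀ ∈ (fun x => x + t₀) '' Set.uIcc 0 (t - t₀) := ⟨r, hr, rfl⟩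
    rw [this] at h2
    simpa using h2
  have hs : IsSol f Ω (t - t₀) (c t₀) (fun r => c (r + t₀)) :=
    ⟨by simp, SolOn.comp_add (J := J) hc t₀ hmap⟩
  have := hs.fl_eq hΩ hf (t - t₀) Set.right_mem_uIcc
  simpa using this

/-- group law. -/
theorem fl_add (hΩ : IsOpen Ω) (hf : ContDiffOn ℝ 1 f Ω) (h : (t, x) ∈ dom f Ω)
    (h' : (s, fl f Ω t x) ∈ dom f Ω) :
    (s + t, x) ∈ dom f Ω ∧ fl f Ω (s + t) x = fl f Ω s (fl f Ω t x) := by
  obtain ⟨c₁, hc₁, he₁⟩ := dom_spec h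
  obtain ⟨c₂, hc₂, he₂⟩ := dom_spec h'
  have hmap : Set.MapsTo (fun r => r + (-t)) (Set.uIcc t (s + t)) (Set.uIcc 0 s) := by
    intro r hr
    have := Set.image_add_const_uIcc (-t) t (s + t)
    have h2 : r + (-t) ∈ (fun x => x + (-t)) '' Set.uIcc t (s + t) := ⟨r, hr, rfl⟩
    rw [this] at h2
    simpa using h2
  have hc₂' : SolOn f Ω (Set.uIcc t (s + t)) (fun r => c₂ (r + (-t))) :=
    SolOn.comp_add hc₂.2 (-t) hmap
  obtain ⟨c, e₁, e₂, hc⟩ := SolOn.glue hΩ hf Set.ordConnected_uIcc Set.ordConnected_uIcc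
    isClosed_Icc isClosed_Icc hc₁.2 hc₂' (t₀ := t) Set.right_mem_uIcc Set.left_mem_uIcc
    (by simp [hc₂.1, he₁])
  have hs : IsSol f Ω (s + t) x c :=
    ⟨(e₁ Set.left_mem_uIcc).trans hc₁.1, hc.mono Set.uIcc_subset_uIcc_union_uIcc⟩
  have h3 := hs.fl_eq hΩ hf (s + t) Set.right_mem_uIcc
  refine ⟨h3.1, h3.2.trans ?_⟩
  rw [e₂ Set.right_mem_uIcc, he₂]
  simp

theorem mem_dom_fl (hΩ : IsOpen Ω) (hf : ContDiffOn ℝ 1 f Ω) (h : (t, x) ∈ dom f Ω)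
    (h' : (s + t, x) ∈ dom f Ω) : (s, fl f Ω t x) ∈ dom f Ω := by
  obtain ⟨c₁, hc₁, he₁⟩ := dom_spec h
  obtain ⟨c₂, hc₂, -⟩ := dom_spec h'
  obtain ⟨c, e₁, -, hc⟩ := SolOn.glue hΩ hf Set.ordConnected_uIcc Set.ordConnected_uIcc
    isClosed_Icc isClosed_Icc hc₁.2 hc₂.2 (t₀ := 0) Set.left_mem_uIcc Set.left_mem_uIcc
    (hc₁.1.trans hc₂.1.symm)
  have hsub : Set.uIcc t (s + t) ⊆ Set.uIcc 0 t ∪ Set.uIcc 0 (s + t) := by
    have := Set.uIcc_subset_uIcc_union_uIcc (a := t) (b := 0) (c := s + t)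
    rwa [Set.uIcc_comm t 0] at this
  have h3 := eq_fl_of_hasDerivWithinAt hΩ hf Set.ordConnected_uIcc (hc.mono hsub)
    (t₀ := t) (t := s + t) Set.left_mem_uIcc Set.right_mem_uIcc
  rw [e₁ Set.right_mem_uIcc, ← he₁] at h3
  simpa using h3.1

theorem fl_neg (hΩ : IsOpen Ω) (hf : ContDiffOn ℝ 1 f Ω) (h : (t, x) ∈ dom f Ω) :
    (-t, fl f Ω t x) ∈ dom f Ω ∧ fl f Ω (-t) (fl f Ω t x) = x := by
  have h0 : (-t + t, x) ∈ dom f Ω := by
    rw [neg_add_cancel]; exact zero_mem_dom.2 (mem_of_mem_dom h)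
  have h1 := mem_dom_fl hΩ hf h h0
  refine ⟨h1, ?_⟩
  have h2 := (fl_add hΩ hf h h1).2
  rw [neg_add_cancel, fl_zero] at h2
  exact h2.symm

theorem mul_mem_uIcc {a r : ℝ} (hr : r ∈ Set.uIcc 0 t) : a * r ∈ Set.uIcc 0 (a * t) := by
  have := Set.image_const_mul_uIcc a 0 t
  have h2 : a * r ∈ (a * ·) '' Set.uIcc 0 t := ⟨r, hr, rfl⟩
  rw [this] at h2
  simpa using h2

theorem IsSol.smul {c : ℝ → E} (a : ℝ) (h : IsSol f Ω (a * t) x c) :
    IsSol (fun y => a • f y) Ω t x (fun r => c (a * r)) := by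
  refine ⟨by simpa using h.1, ?_⟩
  have := SolOn.comp_affine h.2 a 0 (J' := Set.uIcc 0 t) (fun r hr => by simpa using mul_mem_uIcc hr)
  simp only [add_zero] at this
  exact this

/-- rescaling of the field (`a = -1`: time reversal). -/
theorem mem_dom_smul (a : ℝ) : (t, x) ∈ dom (fun y => a • f y) Ω ↔ (a * t, x) ∈ dom f Ω := by
  constructor
  · intro h
    rcases eq_or_ne a 0 with rfl | ha
    · rw [zero_mul]; exact zero_mem_dom.2 (mem_of_mem_dom h)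
    · obtain ⟨c, hc⟩ := h
      have hc' : IsSol (fun y => a • f y) Ω (a⁻¹ * (a * t)) x c := by
        rwa [inv_mul_cancel_left₀ ha]
      have h2 := hc'.smul a⁻¹
      simp only [smul_smul, inv_mul_cancel₀ ha, one_smul] at h2
      exact ⟨_, h2⟩
  · rintro ⟨c, hc⟩
    exact ⟨_, hc.smul a⟩

theorem fl_smul (hΩ : IsOpen Ω) (hf : ContDiffOn ℝ 1 f Ω) (a : ℝ) :
    fl (fun y => a • f y) Ω t x = fl f Ω (a * t) x := by
  by_cases h : (a * t, x) ∈ dom f Ω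
  · obtain ⟨c, hc, he⟩ := dom_spec h
    have h2 := (hc.smul a).fl_eq hΩ (hf.const_smul a) t Set.right_mem_uIcc
    rw [h2.2, he]
  · rw [fl_of_not_mem h, fl_of_not_mem (fun h' => h ((mem_dom_smul a).1 h'))]

/-- restriction of the field to a smaller set. -/
theorem fl_eq_of_subset (hΩ : IsOpen Ω) (hf : ContDiffOn ℝ 1 f Ω) {g : E → E} {Ω' : Set E}
    (hsub : Ω' ⊆ Ω) (hg : Set.EqOn g f Ω') (h : (t, x) ∈ dom g Ω') :
    (t, x) ∈ dom f Ω ∧ fl f Ω t x = fl g Ω' t x := by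
  obtain ⟨c, hc, he⟩ := dom_spec h
  have hc' : IsSol f Ω t x c := ⟨hc.1, fun r hr => ⟨hsub (hc.2 r hr).1, by
    rw [← hg (hc.2 r hr).1]; exact (hc.2 r hr).2⟩⟩
  have := hc'.fl_eq hΩ hf t Set.right_mem_uIcc
  exact ⟨this.1, this.2.trans he.symm⟩

/-- a flow line of `f` on `Ω` which stays in `Ω'` is a flow line on `Ω'`. -/
theorem mem_dom_of_forall_mem (hΩ : IsOpen Ω) (hf : ContDiffOn ℝ 1 f Ω) {Ω' : Set E}
    (h : (t, x) ∈ dom f Ω) (h' : ∀ r ∈ Set.uIcc 0 t, fl f Ω r x ∈ Ω') : (t, x) ∈ dom f Ω' := by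
  obtain ⟨c, hc⟩ := h
  refine ⟨c, hc.1, fun r hr => ⟨?_, (hc.2 r hr).2⟩⟩
  rw [← (hc.fl_eq hΩ hf r hr).2]
  exact h' r hr

/-- naturality: related fields have related flows. -/
theorem fl_map {E' : Type*} [NormedAddCommGroup E'] [NormedSpace ℝ E']
    {g : E' → E'} {Ω' : Set E'} (hΩ' : IsOpen Ω') (hg : ContDiffOn ℝ 1 g Ω')
    {θ : E → E'} {θ' : E → E →L[ℝ] E'} (hθ : ∀ y ∈ Ω, HasFDerivAt θ (θ' y) y)
    (hmap : Set.MapsTo θ Ω Ω') (hrel : ∀ y ∈ Ω, θ' y (f y) = g (θ y)) (h : (t, x) ∈ dom f Ω) :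
    (t, θ x) ∈ dom g Ω' ∧ fl g Ω' t (θ x) = θ (fl f Ω t x) := by
  obtain ⟨c, hc, he⟩ := dom_spec h
  have hc' : IsSol g Ω' t (θ x) (fun r => θ (c r)) := by
    refine ⟨by simp [hc.1], fun r hr => ⟨hmap (hc.2 r hr).1, ?_⟩⟩
    rw [← hrel _ (hc.2 r hr).1]
    exact (hθ _ (hc.2 r hr).1).comp_hasDerivWithinAt r (hc.2 r hr).2
  have := hc'.fl_eq hΩ' hg t Set.right_mem_uIcc
  rw [he]
  exact this

theorem fderiv_fl_zero : fderiv ℝ (fl f Ω 0) x = ContinuousLinearMap.id ℝ E := by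
  have : fl f Ω 0 = id := by funext y; exact fl_zero
  rw [this]
  exact fderiv_id

end A

end Claimed.Agent.R316.ODE
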