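import Claimed.Agent.R316.Base.ODE.Volt
import Claimed.Agent.R316.Base.ODE.FlowBasic

/-!
# `BP-G2` core 3: smooth dependence by the implicit function theorem on `C([0,1], E)`

`picG f ((τ, x), γ) = γ - x - τ ∫_0^· f ∘ γ`.  Its zeros are the solutions of `γ' = τ f(γ)`,
`γ 0 = x` on `[0,1]`; its partial derivative in `γ` is `1 - volt ∘ (τ Df(γ) ·)`, invertible.
Hence (over `𝕜 = ℝ` or `ℂ`, the "time" `τ` in `𝕜`): the set `kdom 𝕜 f Ω` of all `(τ, x)` for which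
the solution exists in `Ω` is an open set, and the time one value is `C^n` in `(τ, x)` there.
-/

set_option autoImplicit false
open scoped ContDiff Topology unitInterval

namespace Claimed.Agent.R316.ODE

section Core

universe u

variable {𝕜 : Type*} [RCLike 𝕜]
variable {E : Type u} [NormedAddCommGroup E] [NormedSpace 𝕜 E] [NormedSpace ℝ E]
  [IsScalarTower ℝ 𝕜 E]

variable (𝕜) in
/-- constant curves. -/
noncomputable def constL : E →L[𝕜] C(I, E) :=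
  LinearMap.mkContinuous
    { toFun := fun x => ContinuousMap.const I x
      map_add' := by intro x y; ext s; simp
      map_smul' := by intro c x; ext s; simp }
    1
    (by
      intro x
      rw [ContinuousMap.norm_le _ (by positivity)]
      intro s
      simp)

omit [NormedSpace ℝ E] [IsScalarTower ℝ 𝕜 E] in
@[simp] theorem constL_apply (x : E) (s : I) : constL 𝕜 x s = x := rfl

/-- the map whose zeros are the solutions of `γ' = τ f(γ)`, `γ 0 = x`. -/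
noncomputable def picG (f : E → E) : (𝕜 × E) × C(I, E) → C(I, E) :=
  fun q => q.2 - constL 𝕜 q.1.2 - q.1.1 • volt 𝕜 (nem f q.2)

theorem contDiffAt_picG {n : ℕ∞} {f : E → E} {Ω : Set E} (hΩ : IsOpen Ω)
    (hf : ContDiffOn 𝕜 n f Ω) (p₀ : 𝕜 × E) {γ₀ : C(I, E)} (hγ₀ : γ₀ ∈ curvesIn I Ω) :
    ContDiffAt 𝕜 n (picG (𝕜 := 𝕜) f) (p₀, γ₀) := by
  have h1 : ContDiffAt 𝕜 n (fun q : (𝕜 × E) × C(I, E) => nem (X := I) f q.2) (p₀, γ₀) :=
    ContDiffAt.comp (p₀, γ₀) (g := nem (X := I) f)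
      ((contDiffOn_nem hΩ hf).contDiffAt ((isOpen_curvesIn hΩ).mem_nhds hγ₀)) contDiffAt_snd
  have h2 : ContDiffAt 𝕜 n (fun q : (𝕜 × E) × C(I, E) => volt 𝕜 (nem (X := I) f q.2)) (p₀, γ₀) :=
    (volt 𝕜 (E := E)).contDiff.contDiffAt.comp (p₀, γ₀) h1
  have h3 : ContDiffAt 𝕜 n (fun q : (𝕜 × E) × C(I, E) => q.1.1) (p₀, γ₀) :=
    contDiffAt_fst.fst
  have h4 : ContDiffAt 𝕜 n (fun q : (𝕜 × E) × C(I, E) => constL 𝕜 q.1.2) (p₀, γ₀) :=
    (constL 𝕜 (E := E)).contDiff.contDiffAt.comp (p₀, γ₀) contDiffAt_fst.snd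
  exact (contDiffAt_snd.sub h4).sub (h3.smul h2)

theorem hasFDerivAt_picG_right {f : E → E} {Ω : Set E} (hΩ : IsOpen Ω)
    (hf : ContDiffOn 𝕜 1 f Ω) (p₀ : 𝕜 × E) {γ₀ : C(I, E)} (hγ₀ : γ₀ ∈ curvesIn I Ω) :
    HasFDerivAt (fun γ : C(I, E) => picG (𝕜 := 𝕜) f (p₀, γ))
      (ContinuousLinearMap.id 𝕜 C(I, E) - volt 𝕜 ∘L appL (p₀.1 • nem (fderiv 𝕜 f) γ₀)) γ₀ := by
  have hf1 := (contDiffOn_succ_iff_fderiv_of_isOpen (n := 0) hΩ).1 (by simpa using hf)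
  have h1 : HasFDerivAt (nem (X := I) f) (appL (nem (fderiv 𝕜 f) γ₀)) γ₀ :=
    hasFDerivAt_nem hΩ hf1.1 hf1.2.2.continuousOn hγ₀
  have h2 : HasFDerivAt (fun γ : C(I, E) => volt 𝕜 (nem (X := I) f γ))
      (volt 𝕜 ∘L appL (nem (fderiv 𝕜 f) γ₀)) γ₀ :=
    (volt 𝕜 (E := E)).hasFDerivAt.comp γ₀ h1
  have h3 := ((hasFDerivAt_id γ₀).sub_const (constL 𝕜 p₀.2)).sub (h2.const_smul p₀.1)
  have e : ContinuousLinearMap.id 𝕜 C(I, E) - p₀.1 • volt 𝕜 ∘L appL (nem (fderiv 𝕜 f) γ₀) =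
      ContinuousLinearMap.id 𝕜 C(I, E) - volt 𝕜 ∘L appL (p₀.1 • nem (fderiv 𝕜 f) γ₀) := by
    rw [map_smul, ContinuousLinearMap.comp_smul]
  exact h3.congr_fderiv e

variable [CompleteSpace E]

/-- **local smooth family of solutions around an arbitrary solution.** -/
theorem exists_local_family {n : ℕ∞} (hn : 1 ≤ n) {f : E → E} {Ω : Set E} (hΩ : IsOpen Ω)
    (hf : ContDiffOn 𝕜 n f Ω) {p₀ : 𝕜 × E} {γ₀ : C(I, E)} (hγ₀ : γ₀ ∈ curvesIn I Ω)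
    (h0 : picG f (p₀, γ₀) = 0) :
    ∃ ψ : 𝕜 × E → C(I, E), ContDiffAt 𝕜 n ψ p₀ ∧ ψ p₀ = γ₀ ∧
      ∀ᶠ p in 𝓝 p₀, ψ p ∈ curvesIn I Ω ∧ picG f (p, ψ p) = 0 := by
  have hn0 : (n : WithTop ℕ∞) ≠ 0 := by
    intro h
    have : n = 0 := by exact_mod_cast h
    simp [this] at hn
  have hn1 : (1 : WithTop ℕ∞) ≤ n := by exact_mod_cast hn
  have cdf := contDiffAt_picG hΩ hf p₀ hγ₀
  have hinv : (fderiv 𝕜 (picG (𝕜 := 𝕜) f) (p₀, γ₀) ∘L
      ContinuousLinearMap.inr 𝕜 (𝕜 × E) C(I, E)).IsInvertible := by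
    have h1 : HasFDerivAt (fun γ : C(I, E) => picG (𝕜 := 𝕜) f (p₀, γ))
        (fderiv 𝕜 (picG (𝕜 := 𝕜) f) (p₀, γ₀) ∘L ContinuousLinearMap.inr 𝕜 (𝕜 × E) C(I, E)) γ₀ :=
      (cdf.differentiableAt hn0).hasFDerivAt.comp γ₀ (hasFDerivAt_prodMk_right p₀ γ₀)
    rw [h1.unique (hasFDerivAt_picG_right hΩ (hf.of_le hn1) p₀ hγ₀)]
    exact isInvertible_one_sub_volt _
  refine ⟨cdf.implicitFunction hn0 hinv, cdf.contDiffAt_implicitFunction hn0 hinv,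
    cdf.implicitFunction_apply_self hn0 hinv, ?_⟩
  have hc : ContinuousAt (cdf.implicitFunction hn0 hinv) p₀ :=
    (cdf.contDiffAt_implicitFunction hn0 hinv).continuousAt
  have h2 : ∀ᶠ p in 𝓝 p₀, cdf.implicitFunction hn0 hinv p ∈ curvesIn I Ω := by
    apply hc
    rw [show cdf.implicitFunction hn0 hinv p₀ = γ₀ from cdf.implicitFunction_apply_self hn0 hinv]
    exact (isOpen_curvesIn hΩ).mem_nhds hγ₀
  filter_upwards [h2, cdf.eventually_apply_implicitFunction hn0 hinv] with p hp1 hp2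
  exact ⟨hp1, hp2.trans h0⟩

/-- a zero of `picG` is a solution. -/
theorem isSol_of_picG {f : E → E} {Ω : Set E} (hf : ContinuousOn f Ω) {τ : 𝕜} {x : E}
    {γ : C(I, E)} (hγ : γ ∈ curvesIn I Ω) (h : picG f ((τ, x), γ) = 0) :
    IsSol (fun y => τ • f y) Ω 1 x (cext γ) := by
  have h1 : ∀ s : I, γ s = x + τ • ∫ r in (0 : ℝ)..s, cext (nem f γ) r := by
    intro s
    have h2 := congrArg (fun g : C(I, E) => g s) h
    simp only [picG, ContinuousMap.sub_apply, constL_apply, ContinuousMap.smul_apply, volt_apply,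
      ContinuousMap.zero_apply] at h2
    rw [sub_sub, sub_eq_zero] at h2
    exact h2
  have h2 : ∀ r ∈ Set.Icc (0 : ℝ) 1, cext γ r = x + τ • ∫ r' in (0 : ℝ)..r, cext (nem f γ) r' := by
    intro r hr
    rw [cext_of_mem _ hr, h1]
  refine ⟨?_, ?_⟩
  · rw [h2 0 ⟨le_rfl, zero_le_one⟩]; simp
  · intro s hs
    rw [Set.uIcc_of_le zero_le_one] at hs ⊢
    refine ⟨by rw [cext_of_mem _ hs]; exact hγ _, ?_⟩
    have h3 : HasDerivAt (fun s : ℝ => x + τ • ∫ r in (0 : ℝ)..s, cext (nem f γ) r)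
        (τ • cext (nem f γ) s) s :=
      ((hasDerivAt_integral_cext _ s).const_smul τ).const_add x
    have h4 : cext (nem f γ) s = f (cext γ s) := by
      rw [cext_of_mem _ hs, cext_of_mem _ hs, nem_apply hf hγ]
    change HasDerivWithinAt (cext γ) (τ • f (cext γ s)) (Set.Icc 0 1) s
    rw [← h4]
    exact h3.hasDerivWithinAt.congr (fun r hr => h2 r hr) (h2 s hs)

/-- a solution is a zero of `picG`. -/
theorem exists_picG_of_isSol {f : E → E} {Ω : Set E} (hf : ContinuousOn f Ω) {τ : 𝕜} {x : E}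
    {c : ℝ → E} (h : IsSol (fun y => τ • f y) Ω 1 x c) :
    ∃ γ ∈ curvesIn I Ω, picG f ((τ, x), γ) = 0 := by
  obtain ⟨h0, h⟩ := h
  rw [Set.uIcc_of_le zero_le_one] at h
  have hc : ContinuousOn c (Set.Icc 0 1) := fun s hs => (h s hs).2.continuousWithinAt
  let γ : C(I, E) := ⟨fun s => c s, continuousOn_iff_continuous_domRestrict.1 hc⟩
  have hγ : γ ∈ curvesIn I Ω := fun s => (h s s.2).1
  refine ⟨γ, hγ, ?_⟩
  ext s
  simp only [picG, ContinuousMap.sub_apply, constL_apply, ContinuousMap.smul_apply, volt_apply,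
    ContinuousMap.zero_apply]
  have h4 : ∀ r ∈ Set.Icc (0 : ℝ) 1, cext (nem f γ) r = f (c r) := by
    intro r hr
    rw [cext_of_mem _ hr, nem_apply hf hγ]
    rfl
  have h5 : ∫ r in (0 : ℝ)..s, τ • cext (nem f γ) r = c s - c 0 := by
    refine intervalIntegral.integral_eq_sub_of_hasDeriv_right_of_le s.2.1
      (hc.mono (Set.Icc_subset_Icc le_rfl s.2.2)) (fun r hr => ?_)
      (((continuous_cext _).const_smul τ).intervalIntegrable _ _)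
    have hr' : r ∈ Set.Icc (0 : ℝ) 1 := ⟨hr.1.le, hr.2.le.trans s.2.2⟩
    rw [h4 r hr']
    exact ((h r hr').2.hasDerivAt (Icc_mem_nhds hr.1 (hr.2.trans_le s.2.2))).hasDerivWithinAt
  rw [intervalIntegral.integral_smul] at h5
  rw [h5, h0]
  change c s - x - (c s - x) = 0
  abel

variable (𝕜) in
/-- the domain of the `𝕜`-time flow. -/
def kdom (f : E → E) (Ω : Set E) : Set (𝕜 × E) :=
  {p | ((1 : ℝ), p.2) ∈ dom (fun y => p.1 • f y) Ω}

omit [CompleteSpace E] in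
theorem contDiffOn_real_smul {n : ℕ∞} (hn : 1 ≤ n) {f : E → E} {Ω : Set E}
    (hf : ContDiffOn 𝕜 n f Ω) (τ : 𝕜) : ContDiffOn ℝ 1 (fun y => τ • f y) Ω := by
  have hn1 : (1 : WithTop ℕ∞) ≤ n := by exact_mod_cast hn
  exact ((hf.of_le hn1).restrict_scalars ℝ).const_smul τ

/-- **the `𝕜`-time flow has an open domain and is `C^n` over `𝕜`.** -/
theorem kflow_aux {n : ℕ∞} (hn : 1 ≤ n) {f : E → E} {Ω : Set E} (hΩ : IsOpen Ω)
    (hf : ContDiffOn 𝕜 n f Ω) {p₀ : 𝕜 × E} (hp₀ : p₀ ∈ kdom 𝕜 f Ω) :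
    kdom 𝕜 f Ω ∈ 𝓝 p₀ ∧ ContDiffAt 𝕜 n (fun p : 𝕜 × E => fl (fun y => p.1 • f y) Ω 1 p.2) p₀ := by
  obtain ⟨c, hc⟩ := hp₀
  obtain ⟨γ₀, hγ₀, h0⟩ := exists_picG_of_isSol hf.continuousOn hc
  obtain ⟨ψ, hψ, -, hev⟩ := exists_local_family hn hΩ hf hγ₀ h0
  have key : ∀ᶠ p in 𝓝 p₀, p ∈ kdom 𝕜 f Ω ∧ fl (fun y => p.1 • f y) Ω 1 p.2 = ψ p 1 := by
    filter_upwards [hev] with p hp
    have hs := isSol_of_picG (τ := p.1) (x := p.2) hf.continuousOn hp.1 hp.2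
    have h1 := hs.fl_eq hΩ (contDiffOn_real_smul hn hf p.1) 1 Set.right_mem_uIcc
    refine ⟨h1.1, h1.2.trans ?_⟩
    exact cext_coe (ψ p) 1
  refine ⟨key.mono fun p hp => hp.1, ?_⟩
  have hev1 : ContDiffAt 𝕜 n (fun p => ψ p 1) p₀ :=
    (ContinuousMap.evalCLM 𝕜 (1 : I) (M := E)).contDiff.contDiffAt.comp p₀ hψ
  exact hev1.congr_of_eventuallyEq (key.mono fun p hp => hp.2)

theorem isOpen_kdom {f : E → E} {Ω : Set E} (hΩ : IsOpen Ω) (hf : ContDiffOn 𝕜 1 f Ω) :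
    IsOpen (kdom 𝕜 f Ω) :=
  isOpen_iff_mem_nhds.2 fun _ hp => (kflow_aux (n := 1) le_rfl hΩ hf hp).1

theorem contDiffOn_kflow {n : ℕ∞} (hn : 1 ≤ n) {f : E → E} {Ω : Set E} (hΩ : IsOpen Ω)
    (hf : ContDiffOn 𝕜 n f Ω) :
    ContDiffOn 𝕜 n (fun p : 𝕜 × E => fl (fun y => p.1 • f y) Ω 1 p.2) (kdom 𝕜 f Ω) :=
  fun _ hp => (kflow_aux hn hΩ hf hp).2.contDiffWithinAt

end Core

end Claimed.Agent.R316.ODE
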