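import Mathlib

/-!
# Row 316 base layer `BP-G2`: ordinary differential equations, definitions

Framework independent.  `E` is a real Banach space, `f : E → E` a vector field which is only
looked at on the set `Ω` (in all theorems: `Ω` is an open set and `f` is `C^n` on it, `n ≥ 1`).

* `IsSol f Ω t x c` : the curve `c` solves `c' = f c` on the segment between `0` and `t`, stays in
  `Ω`, and `c 0 = x`.
* `dom f Ω : Set (ℝ × E)` : domain of the maximal flow (TIME FIRST).
* `fl f Ω t x` : the maximal flow (junk value `x` off the domain).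
* `aug`, `evoDom`, `evo` : time and parameter dependent equations `x' = f (t, p, x)`;
  `evo f O t t₀ p x` is the value at time `t` of the solution with value `x` at time `t₀`.
* `spray B` : first order reduction of `x'' = B x (x', x')`.
* `cdom`, `cfl` : complex time flow of a holomorphic field.

All statements about these objects are in `ODE/Api.lean`.
-/

set_option autoImplicit false
open scoped ContDiff Topology

namespace Claimed.Agent.R316.ODE

section Real

variable {E : Type*} [NormedAddCommGroup E] [NormedSpace ℝ E]

/-- `c` solves `x' = f x` on the segment between `0` and `t`, stays in `Ω` and starts at `x`. -/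
def IsSol (f : E → E) (Ω : Set E) (t : ℝ) (x : E) (c : ℝ → E) : Prop :=
  c 0 = x ∧ ∀ s ∈ Set.uIcc 0 t, c s ∈ Ω ∧ HasDerivWithinAt c (f (c s)) (Set.uIcc 0 t) s

/-- domain of the maximal flow of `f` on `Ω` (time first). -/
def dom (f : E → E) (Ω : Set E) : Set (ℝ × E) := {p | ∃ c, IsSol f Ω p.1 p.2 c}

open Classical in
/-- the maximal flow of `f` on `Ω`. -/
noncomputable def fl (f : E → E) (Ω : Set E) (t : ℝ) (x : E) : E :=
  if h : ∃ c, IsSol f Ω t x c then h.choose t else x

variable {P : Type*} [NormedAddCommGroup P] [NormedSpace ℝ P]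

/-- the autonomous field on `ℝ × P × E` of the equation `x' = f (t, p, x)`. -/
noncomputable def aug (f : ℝ × P × E → E) : ℝ × P × E → ℝ × P × E := fun q => (1, 0, f q)

/-- domain of the evolution map: `(t, t₀, p, x)`. -/
def evoDom (f : ℝ × P × E → E) (O : Set (ℝ × P × E)) : Set (ℝ × ℝ × P × E) :=
  {q | (q.1 - q.2.1, q.2) ∈ dom (aug f) O}

/-- evolution map of `x' = f (t, p, x)`: value at time `t` of the solution which is `x` at `t₀`. -/
noncomputable def evo (f : ℝ × P × E → E) (O : Set (ℝ × P × E)) (t t₀ : ℝ) (p : P) (x : E) : E :=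
  (fl (aug f) O (t - t₀) (t₀, p, x)).2.2

/-- first order reduction of the second order system `x'' = B x (x', x')`. -/
noncomputable def spray (B : E → E →L[ℝ] E →L[ℝ] E) : E × E → E × E := fun q => (q.2, B q.1 q.2 q.2)

end Real

section Complex

variable {E : Type*} [NormedAddCommGroup E] [NormedSpace ℂ E]

/-- domain of the complex time flow: `(ζ, x)` such that `c' = ζ f(c)`, `c 0 = x` can be solved in
`Ω` on `[0,1]`. -/
def cdom (f : E → E) (Ω : Set E) : Set (ℂ × E) :=
  {p | ((1 : ℝ), p.2) ∈ dom (fun y => p.1 • f y) Ω}

/-- complex time flow. -/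
noncomputable def cfl (f : E → E) (Ω : Set E) (ζ : ℂ) (x : E) : E :=
  fl (fun y => ζ • f y) Ω 1 x

end Complex

end Claimed.Agent.R316.ODE
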