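import Claimed.Agent.R316.Base.ODE.Flow

/-!
# `BP-G2` B: time and parameter dependent equations

Leaf `G2-EVO` (PROVED).  Everything follows from section A applied to the field `aug f` on `ℝ × P × E`:
the first two components of a flow line of `aug f` are `(t₀ + s, p)`.
-/

set_option autoImplicit false
set_option linter.unusedSectionVars false
open scoped ContDiff Topology

namespace Claimed.Agent.R316.ODE

/-! ## B. time and parameter dependent equations `x' = f (t, p, x)` -/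

section B

variable {E : Type*} [NormedAddCommGroup E] [NormedSpace ℝ E] [CompleteSpace E]
variable {P : Type*} [NormedAddCommGroup P] [NormedSpace ℝ P] [CompleteSpace P]
variable {f : ℝ × P × E → E} {O : Set (ℝ × P × E)} {t t₀ t₁ : ℝ} {p : P} {x : E}

theorem contDiffOn_aug {n : WithTop ℕ∞} (hf : ContDiffOn ℝ n f O) : ContDiffOn ℝ n (aug f) O :=
  contDiffOn_const.prodMk (contDiffOn_const.prodMk hf)

/-- the first two components of a solution of `aug f`. -/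
theorem IsSol.aug_fst {s : ℝ} {c : ℝ → ℝ × P × E} (h : IsSol (aug f) O s (t₀, p, x) c) :
    ∀ r ∈ Set.uIcc 0 s, (c r).1 = t₀ + r ∧ (c r).2.1 = p := by
  intro r hr
  have hd : ∀ u ∈ Set.uIcc 0 s, HasDerivWithinAt (fun u => ((c u).1 - u, (c u).2.1))
      ((0 : ℝ), (0 : P)) (Set.uIcc 0 s) u := by
    intro u hu
    have h1 := (h.2 u hu).2
    have h2 : HasDerivWithinAt (fun u => (c u).1) 1 (Set.uIcc 0 s) u := h1.fst
    have h3 : HasDerivWithinAt (fun u => (c u).2.1) 0 (Set.uIcc 0 s) u := h1.snd.fst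
    have h4 := h2.sub (hasDerivWithinAt_id u (Set.uIcc 0 s))
    rw [sub_self] at h4
    exact h4.prodMk h3
  have h5 := Convex.norm_image_sub_le_of_norm_hasDerivWithin_le (C := 0) hd
    (fun u _ => by simp) (convex_uIcc 0 s) Set.left_mem_uIcc hr
  rw [zero_mul] at h5
  have h6 := sub_eq_zero.1 (norm_le_zero_iff.1 h5)
  rw [h.1] at h6
  have h7 := (Prod.mk.inj h6).1
  have h8 := (Prod.mk.inj h6).2
  simp only [sub_zero] at h7
  exact ⟨by linarith, h8⟩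

/-- the flow lines of `aug f`. -/
theorem fl_aug {s : ℝ} (h : (s, (t₀, p, x)) ∈ dom (aug f) O) :
    fl (aug f) O s (t₀, p, x) = (t₀ + s, p, (fl (aug f) O s (t₀, p, x)).2.2) := by
  obtain ⟨c, hc, he⟩ := dom_spec h
  obtain ⟨h1, h2⟩ := hc.aug_fst s Set.right_mem_uIcc
  rw [he]
  exact Prod.ext h1 (Prod.ext h2 rfl)

theorem fl_aug_evo (h : (t, t₀, p, x) ∈ evoDom f O) :
    fl (aug f) O (t - t₀) (t₀, p, x) = (t, p, evo f O t t₀ p x) := by
  have h1 := fl_aug (f := f) (O := O) (s := t - t₀) (t₀ := t₀) (p := p) (x := x) h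
  rw [add_sub_cancel] at h1
  exact h1

theorem self_mem_evoDom : (t₀, t₀, p, x) ∈ evoDom f O ↔ (t₀, p, x) ∈ O := by
  show (t₀ - t₀, (t₀, p, x)) ∈ dom (aug f) O ↔ _
  rw [sub_self]
  exact zero_mem_dom

theorem evo_self : evo f O t₀ t₀ p x = x := by
  unfold evo
  rw [sub_self, fl_zero]

theorem isOpen_evoDom (hO : IsOpen O) (hf : ContDiffOn ℝ 1 f O) : IsOpen (evoDom f O) := by
  have hc : Continuous fun q : ℝ × ℝ × P × E => (q.1 - q.2.1, q.2) := by fun_prop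
  exact (isOpen_dom hO (contDiffOn_aug hf)).preimage hc

theorem contDiffOn_evo {n : ℕ∞} (hn : 1 ≤ n) (hO : IsOpen O) (hf : ContDiffOn ℝ n f O) :
    ContDiffOn ℝ n (fun q : ℝ × ℝ × P × E => evo f O q.1 q.2.1 q.2.2.1 q.2.2.2) (evoDom f O) := by
  have h1 := contDiffOn_fl hn hO (contDiffOn_aug hf)
  have h2 : ContDiff ℝ n fun q : ℝ × ℝ × P × E => (q.1 - q.2.1, q.2) := by fun_prop
  have h3 := h1.comp h2.contDiffOn (s := evoDom f O) (fun q hq => hq)
  exact contDiff_snd.comp_contDiffOn (contDiff_snd.comp_contDiffOn h3)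

theorem evo_mem (_hO : IsOpen O) (_hf : ContDiffOn ℝ 1 f O) (h : (t, t₀, p, x) ∈ evoDom f O) :
    (t, p, evo f O t t₀ p x) ∈ O := by
  rw [← fl_aug_evo h]
  exact fl_mem h

theorem mem_evoDom_of_mem_uIcc (h : (t, t₀, p, x) ∈ evoDom f O) (h₁ : t₁ ∈ Set.uIcc t₀ t) :
    (t₁, t₀, p, x) ∈ evoDom f O := by
  refine mem_dom_of_mem_uIcc (t := t - t₀) h ?_
  rw [Set.mem_uIcc] at h₁ ⊢
  rcases h₁ with h₁ | h₁
  · exact Or.inl ⟨by linarith [h₁.1], by linarith [h₁.2]⟩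
  · exact Or.inr ⟨by linarith [h₁.1], by linarith [h₁.2]⟩

theorem hasDerivAt_evo (hO : IsOpen O) (hf : ContDiffOn ℝ 1 f O) (h : (t, t₀, p, x) ∈ evoDom f O) :
    HasDerivAt (fun r => evo f O r t₀ p x) (f (t, p, evo f O t t₀ p x)) t := by
  have h1 := hasDerivAt_fl hO (contDiffOn_aug hf) (t := t - t₀) (x := (t₀, p, x)) h
  have h2 : HasDerivAt (fun r : ℝ => r - t₀) 1 t := (hasDerivAt_id t).sub_const t₀
  have h3 := HasDerivAt.scomp t h1 h2
  rw [one_smul, fl_aug_evo h] at h3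
  exact h3.snd.snd

/-- uniqueness. -/
theorem eq_evo_of_hasDerivWithinAt (hO : IsOpen O) (hf : ContDiffOn ℝ 1 f O) {J : Set ℝ}
    (hJ : J.OrdConnected) {c : ℝ → E}
    (hc : ∀ r ∈ J, (r, p, c r) ∈ O ∧ HasDerivWithinAt c (f (r, p, c r)) J r) (ht₀ : t₀ ∈ J)
    (ht : t ∈ J) : (t, t₀, p, c t₀) ∈ evoDom f O ∧ evo f O t t₀ p (c t₀) = c t := by
  have h1 := eq_fl_of_hasDerivWithinAt hO (contDiffOn_aug hf) hJ (c := fun r => (r, p, c r))
    (fun r hr => ⟨(hc r hr).1,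
      (hasDerivWithinAt_id r J).prodMk ((hasDerivWithinAt_const r J p).prodMk (hc r hr).2)⟩) ht₀ ht
  refine ⟨h1.1, ?_⟩
  unfold evo
  rw [h1.2]

/-- cocycle law. -/
theorem evo_evo (hO : IsOpen O) (hf : ContDiffOn ℝ 1 f O) (h : (t₁, t₀, p, x) ∈ evoDom f O)
    (h' : (t, t₁, p, evo f O t₁ t₀ p x) ∈ evoDom f O) :
    (t, t₀, p, x) ∈ evoDom f O ∧ evo f O t t₁ p (evo f O t₁ t₀ p x) = evo f O t t₀ p x := by
  have h2 : (t - t₁, fl (aug f) O (t₁ - t₀) (t₀, p, x)) ∈ dom (aug f) O := by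
    rw [fl_aug_evo h]; exact h'
  have h3 := fl_add hO (contDiffOn_aug hf) h h2
  rw [sub_add_sub_cancel] at h3
  refine ⟨h3.1, ?_⟩
  unfold evo
  rw [h3.2, fl_aug_evo h]

theorem mem_evoDom_evo (hO : IsOpen O) (hf : ContDiffOn ℝ 1 f O) (h : (t₁, t₀, p, x) ∈ evoDom f O)
    (h' : (t, t₀, p, x) ∈ evoDom f O) : (t, t₁, p, evo f O t₁ t₀ p x) ∈ evoDom f O := by
  have h2 := mem_dom_fl hO (contDiffOn_aug hf) (s := t - t₁) h (by
    rw [sub_add_sub_cancel]; exact h')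
  rw [fl_aug_evo h] at h2
  exact h2

/-- a priori bound ⇒ existence. -/
theorem mem_evoDom_of_apriori (hO : IsOpen O) (hf : ContDiffOn ℝ 1 f O) (hx : (t₀, p, x) ∈ O)
    {K : Set E} (hK : IsCompact K) (hKO : ∀ r ∈ Set.uIcc t₀ t, ∀ y ∈ K, (r, p, y) ∈ O)
    (h : ∀ r ∈ Set.uIcc t₀ t, (r, t₀, p, x) ∈ evoDom f O → evo f O r t₀ p x ∈ K) :
    (t, t₀, p, x) ∈ evoDom f O := by
  have hK' : IsCompact (Set.uIcc t₀ t ×ˢ ({p} : Set P) ×ˢ K) :=
    isCompact_uIcc.prod (isCompact_singleton.prod hK)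
  refine mem_dom_of_apriori hO (contDiffOn_aug hf) (T := t - t₀) hx hK' ?_ ?_
  · rintro ⟨r, p', y⟩ ⟨hr, hp', hy⟩
    rw [Set.mem_singleton_iff] at hp'
    subst hp'
    exact hKO r hr y hy
  · intro r hr hd
    have hr' : t₀ + r ∈ Set.uIcc t₀ t := by
      rw [Set.mem_uIcc] at hr ⊢
      rcases hr with hr | hr
      · exact Or.inl ⟨by linarith [hr.1], by linarith [hr.2]⟩
      · exact Or.inr ⟨by linarith [hr.1], by linarith [hr.2]⟩
    have hd' : (t₀ + r, t₀, p, x) ∈ evoDom f O := by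
      show (t₀ + r - t₀, (t₀, p, x)) ∈ dom (aug f) O
      rw [add_sub_cancel_left]; exact hd
    have h1 := fl_aug_evo hd'
    rw [add_sub_cancel_left] at h1
    rw [h1]
    exact ⟨hr', rfl, h _ hr' hd'⟩

end B

end Claimed.Agent.R316.ODE
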