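import Claimed.Agent.R316.Base.ODE.Nem

/-!
# `BP-G2` core 2: the Volterra operator on `C([0,1], E)`

`volt g s = ∫_0^s g`.  For every continuous family `A` of operators, `1 - volt ∘ (A ·)` is
invertible (the powers of `volt ∘ (A ·)` have norm `≤ ‖A‖^n / n!`).
-/

set_option autoImplicit false
open scoped ContDiff Topology unitInterval Nat

namespace Claimed.Agent.R316.ODE

section Volt

universe u

variable {𝕜 : Type*} [RCLike 𝕜]
variable {E : Type u} [NormedAddCommGroup E] [NormedSpace 𝕜 E] [NormedSpace ℝ E]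

/-- extension of a curve on `[0,1]` to `ℝ` (constant outside). -/
noncomputable def cext (γ : C(I, E)) : ℝ → E := fun r => γ (Set.projIcc 0 1 zero_le_one r)

omit [NormedSpace ℝ E] in
theorem continuous_cext (γ : C(I, E)) : Continuous (cext γ) :=
  γ.continuous.comp continuous_projIcc

omit [NormedSpace ℝ E] in
@[simp] theorem cext_coe (γ : C(I, E)) (s : I) : cext γ s = γ s := by
  simp [cext]

omit [NormedSpace ℝ E] in
theorem cext_of_mem (γ : C(I, E)) {r : ℝ} (hr : r ∈ Set.Icc (0 : ℝ) 1) : cext γ r = γ ⟨r, hr⟩ := by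
  simp [cext, Set.projIcc_of_mem _ hr]

omit [NormedSpace ℝ E] in
theorem norm_cext_le (γ : C(I, E)) (r : ℝ) : ‖cext γ r‖ ≤ ‖γ‖ := γ.norm_coe_le_norm _

omit [NormedSpace ℝ E] in
theorem intervalIntegrable_cext (γ : C(I, E)) (a b : ℝ) :
    IntervalIntegrable (cext γ) MeasureTheory.volume a b :=
  (continuous_cext γ).intervalIntegrable a b

variable [IsScalarTower ℝ 𝕜 E]

variable (𝕜) in
/-- the Volterra operator `g ↦ (s ↦ ∫_0^s g)`. -/
noncomputable def volt : C(I, E) →L[𝕜] C(I, E) :=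
  LinearMap.mkContinuous
    { toFun := fun g => ⟨fun s : I => ∫ r in (0 : ℝ)..s, cext g r,
        (intervalIntegral.continuous_primitive (intervalIntegrable_cext g) 0).comp
          continuous_subtype_val⟩
      map_add' := by
        intro g h
        ext s
        simp only [ContinuousMap.coe_mk, ContinuousMap.add_apply]
        rw [← intervalIntegral.integral_add (intervalIntegrable_cext g _ _)
          (intervalIntegrable_cext h _ _)]
        rfl
      map_smul' := by
        intro c g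
        ext s
        simp only [ContinuousMap.coe_mk, ContinuousMap.smul_apply, RingHom.id_apply]
        rw [← intervalIntegral.integral_smul]
        rfl }
    1
    (by
      intro g
      rw [ContinuousMap.norm_le _ (by positivity)]
      intro s
      simp only [LinearMap.coe_mk, AddHom.coe_mk, ContinuousMap.coe_mk, one_mul]
      have h1 := intervalIntegral.norm_integral_le_of_norm_le_const (a := 0) (b := (s : ℝ))
        (f := cext g) (C := ‖g‖) (fun x _ => norm_cext_le g x)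
      have h2 : |(s : ℝ) - 0| ≤ 1 := by
        rw [sub_zero, abs_of_nonneg s.2.1]; exact s.2.2
      calc _ ≤ ‖g‖ * |(s : ℝ) - 0| := h1
        _ ≤ ‖g‖ * 1 := by gcongr
        _ = ‖g‖ := mul_one _)

theorem volt_apply (g : C(I, E)) (s : I) : volt 𝕜 g s = ∫ r in (0 : ℝ)..s, cext g r := rfl

omit [IsScalarTower ℝ 𝕜 E] [NormedSpace 𝕜 E] in
theorem hasDerivAt_integral_cext [CompleteSpace E] (g : C(I, E)) (s : ℝ) :
    HasDerivAt (fun s : ℝ => ∫ r in (0 : ℝ)..s, cext g r) (cext g s) s :=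
  intervalIntegral.integral_hasDerivAt_right (intervalIntegrable_cext g _ _)
    ((continuous_cext g).stronglyMeasurableAtFilter _ _) (continuous_cext g).continuousAt

/-- pointwise bound for the powers of `volt ∘ (A ·)`. -/
theorem norm_volt_pow_apply_le (A : C(I, E →L[𝕜] E)) (g : C(I, E)) (n : ℕ) (s : I) :
    ‖((volt 𝕜 ∘L appL A) ^ n) g s‖ ≤ ‖A‖ ^ n * ‖g‖ / n ! * (s : ℝ) ^ n := by
  induction n generalizing s with
  | zero => simpa using g.norm_coe_le_norm s
  | succ n ih =>
    rw [pow_succ']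
    set h := ((volt 𝕜 ∘L appL A) ^ n) g with hh
    change ‖volt 𝕜 (appL A h) s‖ ≤ _
    rw [volt_apply]
    have h1 : ‖∫ r in (0 : ℝ)..s, cext (appL A h) r‖ ≤
        ∫ r in (0 : ℝ)..s, ‖A‖ * (‖A‖ ^ n * ‖g‖ / n ! * r ^ n) := by
      refine intervalIntegral.norm_integral_le_of_norm_le s.2.1 ?_
        (Continuous.intervalIntegrable (by fun_prop) _ _)
      refine Filter.Eventually.of_forall fun r hr => ?_
      have hr' : r ∈ Set.Icc (0 : ℝ) 1 := ⟨hr.1.le, hr.2.trans s.2.2⟩
      rw [cext_of_mem _ hr', appL_apply]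
      calc ‖A ⟨r, hr'⟩ (h ⟨r, hr'⟩)‖ ≤ ‖A ⟨r, hr'⟩‖ * ‖h ⟨r, hr'⟩‖ :=
            ContinuousLinearMap.le_opNorm _ _
        _ ≤ ‖A‖ * (‖A‖ ^ n * ‖g‖ / n ! * r ^ n) := by
          gcongr
          · exact A.norm_coe_le_norm _
          · exact ih ⟨r, hr'⟩
    refine h1.trans (le_of_eq ?_)
    rw [intervalIntegral.integral_const_mul, intervalIntegral.integral_const_mul, integral_pow]
    rw [Nat.factorial_succ]
    push_cast
    field_simp
    ring

theorem norm_volt_pow_le (A : C(I, E →L[𝕜] E)) (n : ℕ) :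
    ‖(volt 𝕜 ∘L appL A) ^ n‖ ≤ ‖A‖ ^ n / n ! := by
  refine ContinuousLinearMap.opNorm_le_bound _ (by positivity) fun g => ?_
  rw [ContinuousMap.norm_le _ (by positivity)]
  intro s
  refine (norm_volt_pow_apply_le A g n s).trans ?_
  have h1 : (s : ℝ) ^ n ≤ 1 := pow_le_one₀ s.2.1 s.2.2
  calc ‖A‖ ^ n * ‖g‖ / n ! * (s : ℝ) ^ n ≤ ‖A‖ ^ n * ‖g‖ / n ! * 1 := by gcongr
    _ = ‖A‖ ^ n / n ! * ‖g‖ := by ring

theorem isUnit_one_sub_volt [CompleteSpace E] (A : C(I, E →L[𝕜] E)) :
    IsUnit (1 - volt 𝕜 ∘L appL A) := by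
  set T := volt 𝕜 ∘L appL A with hT
  obtain ⟨n, hn⟩ : ∃ n : ℕ, ‖A‖ ^ n / n ! < 1 :=
    ((FloorSemiring.tendsto_pow_div_factorial_atTop ‖A‖).eventually (gt_mem_nhds one_pos)).exists
  have h1 : IsUnit (1 - T ^ n) :=
    isUnit_one_sub_of_norm_lt_one (R := C(I, E) →L[𝕜] C(I, E)) ((norm_volt_pow_le A n).trans_lt hn)
  have hc : Commute (1 - T) (∑ i ∈ Finset.range n, T ^ i) := by
    rw [commute_iff_eq, mul_neg_geom_sum, geom_sum_mul_neg]
  exact ((hc.isUnit_mul_iff).1 (by rw [mul_neg_geom_sum]; exact h1)).1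

/-- **`1 - volt ∘ (A ·)` is invertible.** -/
theorem isInvertible_one_sub_volt [CompleteSpace E] (A : C(I, E →L[𝕜] E)) :
    (ContinuousLinearMap.id 𝕜 C(I, E) - volt 𝕜 ∘L appL A).IsInvertible := by
  obtain ⟨u, hu⟩ := isUnit_one_sub_volt A
  refine ContinuousLinearMap.IsInvertible.of_inverse (g := (↑u⁻¹ : C(I, E) →L[𝕜] C(I, E))) ?_ ?_
  · have := u.mul_inv
    rw [hu] at this
    exact this
  · have := u.inv_mul
    rw [hu] at this
    exact this

end Volt

end Claimed.Agent.R316.ODE
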